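import Vale.Agent.P022G.Mod.Fm
import Vale.Agent.P022G.Pt.Dual
import Vale.Agent.P022G.Ps.Defs
import Vale.Agent.P022D.As.LevA

/-!
# P022G: from the modules over the symbols to discrete modules over a complete ring
-/

set_option linter.all false

open IsLocalRing Filter

noncomputable section

namespace Vale.Agent.P022G.Mod

open Vale.Agent.P022 Vale.Agent.P022E.As
open Vale.Agent.P022D.As (Dis Sb Fib two_act two_zero nrm2 pow_two_pow)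
open Vale.Agent.P022D.PA (Base)
open Vale.Agent.P022E.Loc (Pl)
open Vale.Agent.P022G.Pt (DM DF)
open Vale.Agent.P022G.Ps (Ps2)

section grp
variable {O : Type} [CommRing O] {r n : ℕ} {τ : Fin r → GQ} {Y : Type} [AddCommGroup Y]
  [Module (Tg O) Y]

theorem nil_tg (h2 : ∀ y : Y, (2 : Tg O) • y = 0) (h : Dia (O := O) n τ Y) (s : Fin r ⊕ Fin r)
    (w : Y) : (dl n τ s - 1 : Tg O) ^ 2 ^ n • w = 0 := by
  rw [two_act (b := dl n τ s ^ 2 ^ n - 1) h2 (by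
      simp only [map_pow, map_sub, map_one]
      exact pow_two_pow (two_zero _) _ n), sub_smul, h.grp, one_smul, sub_self]

theorem nrm_tg (h2 : ∀ y : Y, (2 : Tg O) • y = 0) (w : Y) :
    (nD n τ : Tg O) • w = (∏ s, (dl n τ s - 1 : Tg O) ^ (2 ^ n - 1)) • w := by
  refine two_act h2 ?_ w
  have e1 := nrm2 (two_zero (Tg O)) n fun s =>
    Ideal.Quotient.mk (Ideal.span {(2 : Tg O)}) (dl n τ s)
  rw [Vale.Agent.P022D.As.nD]
  simp only [map_prod, map_sum, map_pow, map_sub, map_one]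
  exact e1.symm

theorem rel_t (h : Dia (O := O) n τ Y) (i : Fin r) (w : Y) :
    (tt (τ i) - (1 + yy i) * (1 + ee n τ i) : Tg O) • w = 0 := by
  have e : 2 ^ n = 2 ^ n - 1 + 1 := (Nat.sub_add_cancel Nat.one_le_two_pow).symm
  have k : (1 + yy i : Tg O) ^ (2 ^ n - 1 + 1) • w = w := e ▸ h.grp (.inl i) w
  have h2 : (tt (τ i) - (1 + yy i) * (1 + ee n τ i) : Tg O) = (tt (τ i) - (1 + yy i)) -
      (tt (τ i) - (1 + yy i)) * (1 + yy i) ^ (2 ^ n - 1 + 1) := by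
    rw [Vale.Agent.P022D.As.ee]
    ring
  rw [h2, sub_smul, mul_smul, k, sub_self]

theorem rel_d (h : Dia (O := O) n τ Y) (i : Fin r) (w : Y) :
    (dd (τ i) - (1 + yy i) ^ 2 * ee n τ i : Tg O) • w = 0 := by
  have e : 2 ^ n = 2 ^ n - 1 + 1 := (Nat.sub_add_cancel Nat.one_le_two_pow).symm
  have k : (1 + yy i : Tg O) ^ (2 ^ n - 1 + 1) • w = w := e ▸ h.grp (.inl i) w
  have h2 : (1 + yy i : Tg O) ^ 2 * ee n τ i =
      (1 + yy i) * (tt (τ i) - (1 + yy i)) * (1 + yy i) ^ (2 ^ n - 1 + 1) := by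
    rw [Vale.Agent.P022D.As.ee]
    ring
  rw [sub_smul, h.dq, h2, mul_smul _ _ w, mul_smul _ _ w, k, mul_smul, sub_self]

theorem rel_q (h : Dia (O := O) n τ Y) (i : Fin r) (w : Y) :
    (yy i ^ 2 - (tt (τ i) - 2) * yy i + (dd (τ i) - tt (τ i) + 1) : Tg O) • w = 0 := by
  have e : (yy i ^ 2 - (tt (τ i) - 2) * yy i + (dd (τ i) - tt (τ i) + 1) : Tg O) =
      dd (τ i) - (1 + yy i) * (tt (τ i) - (1 + yy i)) := by ring
  rw [e, sub_smul, h.dq, sub_self]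

end grp

variable {O F P : Type} [CommRing O] [IsLocalRing O] [Field F] [CommRing P] [Base P]

/-- the parameters -/
def uu (lam : ℕ → Tg O →+* P) {r : ℕ} (τ : ℕ → Fin r → GQ) (n : ℕ) (s : Fin r ⊕ Fin r) : P :=
  lam n (dl n (τ n) s - 1)

/-- the denominators -/
def DD (lam : ℕ → Tg O →+* P) {r : ℕ} (q : ℕ → Fin r → ℕ) (φ : ℕ → Fin r → GQ) (c n : ℕ) : P :=
  lam n (Dq (q n) (φ n) ^ c)

/-- the actions at all levels -/
structure Tw (m : Ideal (Tg O)) (ϖ : O) (π : P) (𝔊 : ℕ → Set (Ideal (Tg O)))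
    (Φ : ℕ → ∀ a : Ideal (Tg O), P →+* Tg O ⧸ a) (lam : ℕ → Tg O →+* P) : Prop where
  fm : ∀ n, Fm (𝔊 n) (Φ n) m
  lm : ∀ n, Lm (𝔊 n) (Φ n) (lam n)
  pi : ∀ n, lam n (cc ϖ) = π
  two : ϖ ∣ 2
  max : cc ϖ ∈ m

variable {ϖ : O} {S : P022E.R.Dat O F} {L : Pl O} {I : Type} {Y0 : I → Type} {W0 : Type}
  [∀ i, AddCommGroup (Y0 i)] [∀ i, Module (Tg O) (Y0 i)] [AddCommGroup W0] [Module (Tg O) W0]
  {ses : I → I → I → Prop} {ig : I} {iJ : Finset L.C → I} {r : ℕ} {b : I → ℕ} {c : ℕ}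
  {q : ℕ → Fin r → ℕ} {τ φ : ℕ → Fin r → GQ} {Yb : ℕ → I → Type} {Wc : ℕ → Type}
  [∀ n i, AddCommGroup (Yb n i)] [∀ n i, Module (Tg O) (Yb n i)] [∀ n, AddCommGroup (Wc n)]
  [∀ n, Module (Tg O) (Wc n)] {π : P} {𝔊 : ℕ → Set (Ideal (Tg O))}
  {Φ : ℕ → ∀ a : Ideal (Tg O), P →+* Tg O ⧸ a} {lam : ℕ → Tg O →+* P}

section one
variable {m : Ideal (Tg O)} (H : Tw m ϖ π 𝔊 Φ lam) {n : ℕ} {V : Type} [AddCommGroup V]
  [Module (Tg O) V] [Module P V] (c1 : Ac (𝔊 n) (Φ n) V)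
include H c1

theorem Tw.sm (t : Tg O) (w : V) : lam n t • w = t • w := (H.lm n).smul c1 t w

theorem Tw.p1 (w : V) : π • w = cc ϖ • w := by rw [← H.pi n, H.sm c1]

theorem Tw.pw (j : ℕ) (w : V) : π ^ j • w = cc ϖ ^ j • w := by rw [← H.pi n, ← map_pow, H.sm c1]

theorem Tw.fix {w : V} : (∀ s, uu lam τ n s • w = 0) ↔ ∀ s, (dl n (τ n) s : Tg O) • w = w :=
  forall_congr' fun s => by rw [uu, H.sm c1, sub_smul, one_smul, sub_eq_zero]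

omit c1 [Module P V] in
theorem Tw.two' (h : ∀ w : V, cc ϖ • w = 0) (y : V) : (2 : Tg O) • y = 0 := by
  obtain ⟨e, he⟩ := H.two
  rw [← map_ofNat (MvPolynomial.C : O →+* Tg O) 2, he, map_mul, mul_comm, mul_smul]
  exact (congrArg _ (h y)).trans (smul_zero _)

end one

variable [∀ n i, Module P (Yb n i)] [∀ i, Module P (Y0 i)]

/-- **DM** -/
theorem Tw.dm (H : Tw (mT L.r) ϖ π 𝔊 Φ lam)
    (V : ∀ n, Lv2 ϖ S L Y0 W0 ses ig iJ b c n (q n) (τ n) (φ n) (Yb n) (Wc n))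
    (sb0 : ∀ i, ∃ b, Sb2 (mT L.r) b (Y0 i)) (cY : ∀ n i, Ac (𝔊 n) (Φ n) (Yb n i))
    (c0 : ∀ n i, Ac (𝔊 n) (Φ n) (Y0 i)) :
    DM π (uu lam τ) (DD lam q φ c) (fun i n => Yb n i) (fun i => Finset (Fin r) → Y0 i) ses where
  ex i j k h n := by
    obtain ⟨f, g, a⟩ := (V n).ex i j k h
    exact ⟨(H.fm n).lin (cY n i) (cY n j) f, (H.fm n).lin (cY n j) (cY n k) g, a⟩
  dis i n := (H.fm n).dis (cY n i)
  dis0 i := (H.fm 0).dis ((H.fm 0).pi (c0 0 i) _)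
  sb i := ⟨b i, fun n => (H.fm n).sb (H.lm n) (cY n i) ((V n).sb i)⟩
  sb0 i := (sb0 i).elim fun _ h => sb_pi ((H.fm 0).sb (H.lm 0) (c0 0 i) h) _
  pi i n w := (H.p1 (cY n i) w).trans ((V n).pi i w)
  nil i n s w := by
    rw [uu, ← map_pow, H.sm (cY n i)]
    exact nil_tg (H.two' ((V n).pi i)) ((V n).dia i) s w
  free i n w hw := by
    obtain ⟨w', e⟩ := (V n).free i w ((H.fix (cY n i)).1 hw)
    refine ⟨w', e.trans ((nrm_tg (H.two' ((V n).pi i)) w').trans ?_)⟩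
    rw [← H.sm (cY n i), map_prod]
    simp only [map_pow]
    rfl
  fib i n := by
    obtain ⟨β, a1, a2, a3⟩ := (V n).fib i
    have c2 := (H.fm n).pi (c0 n i) (Finset (Fin r))
    refine ⟨(H.fm n).lin c2 (cY n i) β, fun s w => (H.fix (cY n i)).2 (fun s => a1 s w) s,
      fun w hw => (H.sm c2 _ w).trans (a2 w hw), fun v hv => ?_⟩
    obtain ⟨w, hw⟩ := a3 v ((H.fix (cY n i)).1 hv)
    exact ⟨w, hw.trans (H.sm (cY n i) _ v).symm⟩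

omit [∀ i, Module P (Y0 i)] in
/-- **DF**, general form -/
theorem Tw.df' {m : Ideal (Tg O)} (H : Tw m ϖ π 𝔊 Φ lam) [∀ n, Module P (Wc n)] {i : I}
    (cY : ∀ n, Ac (𝔊 n) (Φ n) (Yb n i)) (cW : ∀ n, Ac (𝔊 n) (Φ n) (Wc n))
    (dia : ∀ n, Dia (O := O) n (τ n) (Wc n))
    (red : ∀ n, ∃ e : Yb n i →ₗ[Tg O] Wc n, Function.Injective e ∧
      ∀ w, w ∈ LinearMap.range e ↔ cc ϖ • w = 0)
    (piC : ∀ n (w : Wc n), cc ϖ ^ (n + 1) • w = 0)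
    (flat : ∀ n (w : Wc n), cc ϖ • w = 0 → ∃ w' : Wc n, w = cc ϖ ^ n • w') :
    DF π (uu lam τ) (fun i n => Yb n i) i Wc where
  two := by
    obtain ⟨e, he⟩ := H.two
    refine ⟨lam 0 (cc e), ?_⟩
    rw [← H.pi 0, ← map_mul, ← map_ofNat (lam 0) 2, ← map_ofNat (MvPolynomial.C : O →+* Tg O) 2, he,
      map_mul]
    rfl
  max := H.pi 0 ▸ ((H.lm 0).max (H.fm 0) _).2 H.max
  dis n := (H.fm n).dis (cW n)
  red n := by
    obtain ⟨e, a1, a2⟩ := red n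
    exact ⟨(H.fm n).lin (cY n) (cW n) e, a1, fun w => by rw [H.p1 (cW n), ← a2]; rfl⟩
  piC n w := (H.pw (cW n) _ w).trans (piC n w)
  flat n w hw := (flat n w ((H.p1 (cW n) w).symm.trans hw)).imp fun w' e =>
    e.trans (H.pw (cW n) n w').symm
  grp n s w := by
    rw [uu, ← map_one (lam n), ← map_add, ← map_pow, H.sm (cW n), add_sub_cancel]
    exact (dia n).grp s w

omit [∀ i, Module P (Y0 i)] in
/-- **DF** for the Whittaker modules -/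
theorem Tw.df (H : Tw (mT L.r) ϖ π 𝔊 Φ lam) [∀ n, Module P (Wc n)]
    (V : ∀ n, Lv2 ϖ S L Y0 W0 ses ig iJ b c n (q n) (τ n) (φ n) (Yb n) (Wc n))
    (cY : ∀ n i, Ac (𝔊 n) (Φ n) (Yb n i)) (cW : ∀ n, Ac (𝔊 n) (Φ n) (Wc n)) :
    DF π (uu lam τ) (fun i n => Yb n i) ig Wc :=
  H.df' (fun n => cY n ig) cW (fun n => (V n).diaC) (fun n => (V n).red) (fun n => (V n).piC)
    fun n => (V n).flat

omit [∀ i, Module P (Y0 i)] in
/-- **DF** for the principal series modules -/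
theorem Tw.dfp (H : Tw (mT L.r) ϖ π 𝔊 Φ lam) {Pc : ℕ → Type} [∀ n, AddCommGroup (Pc n)]
    [∀ n, Module (Tg O) (Pc n)] [∀ n, Module P (Pc n)] {ib : I} {s : GQ}
    (V : ∀ n, Ps2 ϖ S L n (q n) (τ n) s (Yb n ib) (Pc n))
    (cY : ∀ n i, Ac (𝔊 n) (Φ n) (Yb n i)) (cW : ∀ n, Ac (𝔊 n) (Φ n) (Pc n)) :
    DF π (uu lam τ) (fun i n => Yb n i) ib Pc :=
  H.df' (fun n => cY n ib) cW (fun n => (V n).dia) (fun n => (V n).red) (fun n => (V n).piC)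
    fun n => (V n).flat

omit [∀ i, Module P (Y0 i)] [∀ n i, Module P (Yb n i)] in
/-- the discrete form of `cyc` -/
theorem Tw.cyc (H : Tw (mT L.r) ϖ π 𝔊 Φ lam) [∀ n, Module P (Wc n)] {n : ℕ}
    (V : Lv2 ϖ S L Y0 W0 ses ig iJ b c n (q n) (τ n) (φ n) (Yb n) (Wc n))
    (cW : Ac (𝔊 n) (Φ n) (Wc n)) : ∃ χ : CharacterModule (Wc n), ∀ w : Wc n,
      (∀ t : P, χ (t • w) = 0) → (∏ i, uu lam τ n (Sum.inr i)) ^ c • w = 0 := by
  obtain ⟨χ, hχ⟩ := V.cyc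
  refine ⟨χ, fun w hw => ?_⟩
  have := hχ w fun u => by rw [← H.sm cW]; exact hw _
  rwa [← H.sm cW, map_pow, map_prod] at this

omit [∀ i, Module P (Y0 i)] [∀ n i, Module P (Yb n i)] in
/-- the discrete form of the descent -/
theorem Tw.desc (H : Tw (mT L.r) ϖ π 𝔊 Φ lam) [∀ n, Module P (Wc n)] {n : ℕ}
    (V : Lv2 ϖ S L Y0 W0 ses ig iJ b c n (q n) (τ n) (φ n) (Yb n) (Wc n))
    (cW : Ac (𝔊 n) (Φ n) (Wc n)) {j : ℕ} (hj : j ≤ n) (p : Tg O)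
    (hp : ∀ v : W0, cc ϖ ^ j • v = 0 → p • v = 0) (w : Wc n) (h1 : π ^ j • w = 0)
    (h2 : ∀ s, uu lam τ n s • w = 0) : (DD lam q φ c n * lam n p) • w = 0 := by
  obtain ⟨s, a1, a2⟩ := V.desc j hj w ((H.pw cW j w).symm.trans h1) ((H.fix cW).1 h2)
  rw [DD, ← map_mul, H.sm cW]
  exact a2 p fun v hv => hp v (a1 v hv)

end Vale.Agent.P022G.Mod
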