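import Vale.Agent.P022G.Mod.Gp
import Vale.Agent.P022G.Mod.Lev

/-!
# P022G: the modules at a curve
-/

set_option linter.all false

open IsLocalRing Filter MvPowerSeries NumberField

noncomputable section

namespace Vale.Agent.P022G.Mod

open Vale.Agent.P022 Vale.Agent.P022G.R Vale.Agent.P022G.Loc
open Vale.Agent.P022E.As (Tg cc tt dd yy Gw mT ev0 pk Dia Dq dl ee)
open Vale.Agent.P027M.S (Inert mx)
open Vale.Agent.P022D.Core (PS io y1 Coef)
open Vale.Agent.P022D.PA (Base Cv)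
open Vale.Agent.P022D.As.EA (cv_const cv_add cv_sub cv_mul cv_map)
open Vale.Agent.P022D.Sel (M2)
open Vale.Agent.P022E.Loc (Pl)
open Vale.Agent.P022E.GW (Ov Gn)
open Vale.Agent.P022F.End0 (evc evt evd evy)
open Vale.Agent.P022G.Pt (Du An an_of ann_dual)
open Ideal (torsionOf mem_torsionOf_iff)

section gen
variable {P T : Type} [CommRing P] [CommRing T]

theorem ann_pi (Y ι : Type) [AddCommGroup Y] [Module P Y] [Nonempty ι] :
    Module.annihilator P (ι → Y) = Module.annihilator P Y := by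
  ext f
  rw [Module.mem_annihilator, Module.mem_annihilator]
  exact ⟨fun h w => congrFun (h fun _ => w) (Classical.arbitrary ι), fun h w => funext fun i => h _⟩

/-- finitely many elements determine the annihilator up to a power of the maximal ideal -/
theorem Fm.chev [Base P] {𝔊 : Set (Ideal T)} {Φ : ∀ a : Ideal T, P →+* T ⧸ a} {m a0 : Ideal T}
    (h : Fm 𝔊 Φ m) {Y : Type} [AddCommGroup Y] [Module T Y] [Module P Y] (c : Ac 𝔊 Φ Y)
    (g : Gd 𝔊 Y) (h0 : a0 ∈ 𝔊) (k : ℕ) : ∃ a ∈ 𝔊, a ≤ a0 ∧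
      (∀ t ∈ a0, (∀ w : Y, t • w = 0) → t ∈ a) ∧
      RingHom.ker (Φ a) ≤ Module.annihilator P Y ⊔ maximalIdeal P ^ k := by
  classical
  let A : Finset Y → Ideal T := fun s => a0 ⊓ s.inf (torsionOf T Y)
  have hA : ∀ s, A s ∈ 𝔊 := fun s => by
    induction s using Finset.induction_on with
    | empty => simpa [A] using h0
    | insert w s _ ih =>
      have e : A (insert w s) = torsionOf T Y w ⊓ A s := by
        simp only [A, Finset.inf_insert]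
        exact inf_left_comm _ _ _
      exact e ▸ h.inf _ (g w) _ ih
  have z : ∀ a ∈ 𝔊, ∀ b ∈ 𝔊, a ≤ b → ∀ f, Φ a f = 0 → Φ b f = 0 := fun a ha b hb e f k =>
    (h.fac a ha b hb e f 0 (k.trans (map_zero _).symm)).trans (map_zero _)
  by_contra hn
  have ne : ∀ s, ∃ f, Φ (A s) f = 0 ∧ f ∉ Module.annihilator P Y ⊔ maximalIdeal P ^ k := fun s => by
    by_contra c'
    refine hn ⟨A s, hA s, inf_le_left, fun t ht hw => ⟨ht, ?_⟩, fun f hf => ?_⟩
    · exact (Finset.le_inf (fun w _ => (Ideal.span_singleton_le_iff_mem _).2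
        ((mem_torsionOf_iff _ _).2 (hw w)))) (Ideal.mem_span_singleton_self t)
    · by_contra c''
      exact c' ⟨f, hf, c''⟩
  obtain ⟨y, hy⟩ := cpt (fun s : Finset Y =>
    {f | Φ (A s) f = 0 ∧ f ∉ Module.annihilator P Y ⊔ maximalIdeal P ^ k})
    (fun s t => ⟨s ∪ t, fun f hf => ⟨z _ (hA _) _ (hA _) (inf_le_inf_left _
      (Finset.inf_mono Finset.subset_union_left)) f hf.1, hf.2⟩, fun f hf => ⟨z _ (hA _) _ (hA _)
      (inf_le_inf_left _ (Finset.inf_mono Finset.subset_union_right)) f hf.1, hf.2⟩⟩) ne fun s => by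
      obtain ⟨j, hj⟩ := h.ker _ (hA s)
      refine ⟨j + k, fun x hx y hxy => ⟨?_, fun c' => hx.2 ?_⟩⟩
      · have := hj _ (Ideal.pow_le_pow_right (Nat.le_add_right _ _) hxy)
        rwa [map_sub, hx.1, zero_sub, neg_eq_zero] at this
      · rw [← sub_add_cancel x y]
        exact add_mem (Ideal.mem_sup_right (Ideal.pow_le_pow_right (Nat.le_add_left _ _) hxy)) c'
  exact (hy ∅).2 (Ideal.mem_sup_left ((h.mem_ann c g y).2 fun w => z _ (hA _) _ (g w)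
    (inf_le_right.trans (Finset.inf_le (Finset.mem_singleton_self w))) y (hy {w}).1))

end gen

variable {O F : Type} [CommRing O] [IsDomain O] [IsDiscreteValuationRing O] [Coef O] [Field F]
  [CharP F 2] {ϖ : O} {S : Dat O F} {L : Pl O} {β : Type} {τ ι' : β → Type} [Fintype β]
  [∀ b, Fintype (τ b)] {K : Kx O β τ ι' L.C} {ι : Type} [Fintype ι] {r s : ℕ} {V : Type}
  [CommRing V] (Y : Pc (S := S) (ι := ι) K r s V)

/-- the good ideals of level `n` -/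
abbrev gg (n : ℕ) : Set (Ideal (Tg O)) := GP S L (Finset.univ.image (Y.q n)) r

/-- the evaluations of level `n` -/
abbrev ph (n : ℕ) : ∀ a : Ideal (Tg O), PP O ι r →+* Tg O ⧸ a := Ph (Y.G'.vP (Y.τ' n))

/-- the generators of level `n` -/
abbrev gn (n : ℕ) : ι ⊕ Fin r → GQ := Sum.elim Y.G'.γ (Y.τ' n)

variable [Base (PP O ι r)]

/-- the lifts of the symbols -/
structure La (ϖ : O) (lam : ℕ → Tg O →+* PP O ι r) : Prop where
  fc : Fc ϖ S L
  ok : Y.Ok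
  tw : Tw (mT L.r) ϖ (C ϖ) (gg Y) (ph Y) lam
  c : ∀ n o, lam n (cc o) = C o
  y : ∀ n (i : Fin r), lam n (yy i) = X (Sum.inr i)

variable {Y}

theorem ex_la (H : Fc ϖ S L) (hY : Y.Ok) : ∃ lam, La Y ϖ lam := by
  have k := fun n => ex_lam (H.fm Y.G' (hY.gn n)) C
    (fun a ha o => (H.hmq Y.G' (hY.gn n) ha).c o)
    (fun i => if h : i < r then X (Sum.inr ⟨i, h⟩) else 0) fun a ha i => by
      split_ifs with h
      · exact (H.hmq Y.G' (hY.gn n) ha).x _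
      · rcases ha with rfl | ⟨Z, -, -, -, a4⟩
        · exact Subsingleton.elim _ _
        · exact (map_zero _).trans (Ideal.Quotient.eq_zero_iff_mem.2 (a4 i (not_lt.1 h))).symm
  choose lam h1 h2 h3 using k
  refine ⟨lam, H, hY, ⟨fun n => H.fm Y.G' (hY.gn n), h1, fun n => h2 n ϖ, ?_,
    cc_mem.2 H.irr.not_isUnit⟩, h2, fun n i => (h3 n i).trans (dif_pos i.2)⟩
  rw [← Ideal.mem_span_singleton, ← H.irr.maximalIdeal_eq]
  exact Coef.two

variable {lam : ℕ → Tg O →+* PP O ι r} (A : La Y ϖ lam)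
include A

theorem La.hq {n : ℕ} {Q : Finset ℕ} {r' : ℕ} {a : Ideal (Tg O)} (ha : a ∈ GP S L Q r') :
    Hq (Y.G'.vP (Y.τ' n)) a (ph Y n a) := A.fc.hmq Y.G' (A.ok.gn n) ha

theorem La.base (n : ℕ) {a : Ideal (Tg O)} (ha : a ∈ GP S L ∅ 0) :
    a ∈ gg Y n ∧ ph Y n a = (Ph (vA Y.G') a).comp Y.jr :=
  ⟨ha.imp id fun h => gp_mono h _ _, (A.fc.base Y.G' (A.ok.gn n) A.ok.jr ha).symm⟩

/-- the modules of level `n` -/
theorem La.mod (n : ℕ) {N : Type} [AddCommGroup N] [Module (Tg O) N] (g : Gd (gg Y n) N) :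
    ∃ _ : Module (PP O ι r) N, Ac (gg Y n) (ph Y n) N := (A.tw.fm n).mod g

/-- **the modules of level zero** -/
theorem La.mod0 {N : Type} [AddCommGroup N] [Module (Tg O) N] (g : Gd (GP S L ∅ 0) N) :
    ∃ _ : Module (PP O ι r) N, (∀ n, Ac (gg Y n) (ph Y n) N) ∧
      Module.annihilator (PP O ι r) N = (Y.G'.An N).comap Y.jr := by
  have f : Fm (GP S L ∅ 0) (ph Y 0) (mT L.r) :=
    fm_of A.fc.inf' (A.fc.vP_mem Y.G' (A.ok.gn 0)) (fun a ha => A.fc.nil' ha)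
      (fun a ha => (A.tw.fm 0).sur a (A.base 0 ha).1) ⟨_, Or.inr (A.fc.gmT _ _), le_rfl⟩
  obtain ⟨i, c⟩ := f.mod g
  refine ⟨i, fun n => c.mono fun a ha =>
    ⟨(A.base n ha).1, (A.base n ha).2.trans (A.base 0 ha).2.symm⟩, ?_⟩
  ext x
  rw [f.mem_ann c g, Ideal.mem_comap, A.fc.mem_An Y.G' g]
  exact forall_congr' fun w => by rw [(A.base 0 (g w)).2]; rfl

/-- symbols which vanish at level zero -/
theorem La.mem_e (n : ℕ) {t : Tg O} (h : ∀ a, Gp S L ∅ 0 a → t ∈ a) : lam n t ∈ (Y.rd ϖ).𝔢 :=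
  A.fc.mem_aP Y.G' fun a ha => by
    obtain ⟨a1, a2⟩ := A.base n (Or.inr ha)
    have := A.tw.lm n a a1 t
    rw [a2] at this
    exact this.trans (Ideal.Quotient.eq_zero_iff_mem.2 (h a ha))

theorem La.ue (n : ℕ) (i : Fin r ⊕ Fin r) : uu lam Y.τq n i ∈ (Y.rd ϖ).𝔢 := by
  refine A.mem_e n fun a ⟨Z, a1, a2, _, a4⟩ => ?_
  rcases i with i | i
  · change 1 + yy i - 1 ∈ a
    rw [add_sub_cancel_left]
    exact a4 _ (Nat.zero_le _)
  · obtain ⟨P, b, c⟩ := A.ok.ine n i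
    have e := a2.unr _ b.1 (A.ok.gn n i).1 (Finset.notMem_empty _) P b.2.1 b.2.2 _ c 1
    rw [one_mul, Z.tf.one] at e
    rw [← Ideal.Quotient.eq_zero_iff_mem]
    change Ideal.Quotient.mk a ((tt _ - (1 + yy i)) * (1 + yy i) ^ (2 ^ n - 1) - 1) = 0
    simp only [map_sub, map_mul, map_pow, map_add, map_one]
    rw [a1.t, e, Ideal.Quotient.eq_zero_iff_mem.2 (a4 _ (Nat.zero_le _))]
    ring

theorem La.unit {φ : ℕ → Fin r → GQ} (hφ : ∀ n i, (mx S.rb (φ n i)).trace ≠ 0) (c n : ℕ) :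
    DD lam Y.q φ c n ∉ maximalIdeal (PP O ι r) := fun h => by
  have h1 := A.fc.mem_mT.1 (((A.tw.lm n).max (A.tw.fm n) _).1 h)
  rw [map_pow, map_pow, Vale.Agent.P022D.As.Dq, map_prod, map_prod] at h1
  obtain ⟨i, -, hi⟩ := Finset.prod_eq_zero_iff.1 (pow_eq_zero_iff' |>.1 h1).1
  obtain ⟨a, P, b, -⟩ := A.ok.gn n i
  have two : (2 : F) = 0 := CharP.cast_eq_zero F 2
  obtain ⟨m, hm⟩ := b.1.odd_of_ne_two fun e => a (by rw [e, A.fc.ok.hT]; simp)
  have q1 : ((Y.q n i : ℕ) : F) = 1 := by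
    rw [hm]; push_cast; rw [two]; ring
  simp only [map_sub, map_mul, map_pow, map_add, map_natCast, map_one, evt, evd] at hi
  rw [q1, one_add_one_eq_two, two, AddMonoidHom.map_trace, A.fc.ok.lift] at hi
  exact hφ n i (pow_eq_zero_iff' (n := 2) |>.1 (by linear_combination hi)).1

theorem La.dp {φ : ℕ → Fin r → GQ} (hφ : ∀ n i, (mx S.rb (φ n i)).trace ≠ 0) {c : ℕ}
    {d : PP O ι r} (hd : Cv (Y.U : Filter ℕ) (DD lam Y.q φ c) d) : IsUnit d := by
  obtain ⟨n, hn⟩ := (hd 1).exists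
  by_contra h
  rw [pow_one] at hn
  exact A.unit hφ c n (by simpa using add_mem hn h)

section ent
variable {n : ℕ} {Q : Finset ℕ} {r' : ℕ} {a : Ideal (Tg O)} (ha : a ∈ GP S L Q r')
include ha

theorem La.aS (i : ι ⊕ Fin r) :
    ph Y n a (aS (Y.G'.rcr r) Sum.inl i) = Ideal.Quotient.mk a (aT S L (gn Y n i)) := by
  rw [P022G.aS, map_add, (A.hq ha).c, (A.hq ha).x, RingHom.comp_apply, ← map_add]
  exact congrArg _ (add_sub_cancel _ _)

theorem La.dS (i : ι ⊕ Fin r) :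
    ph Y n a (dS (Y.G'.rcr r) Sum.inl i) = Ideal.Quotient.mk a (dT S L (gn Y n i)) := by
  rw [P022G.dS, map_add, (A.hq ha).c, (A.hq ha).x, RingHom.comp_apply, ← map_add]
  exact congrArg _ (add_sub_cancel _ _)

theorem La.xS (i k : ι ⊕ Fin r) : ph Y n a (xS (Y.G'.rcr r) Sum.inl i k) =
    Ideal.Quotient.mk a (xT S L (gn Y n i) (gn Y n k)) := by
  rw [P022G.xS, map_add, (A.hq ha).c, (A.hq ha).x, RingHom.comp_apply, ← map_add]
  exact congrArg _ (add_sub_cancel _ _)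

theorem La.trS (i : ι ⊕ Fin r) :
    ph Y n a (trS (Y.G'.rcr r) Sum.inl i) = Ideal.Quotient.mk a (tt (gn Y n i)) := by
  rw [P022G.trS, map_add, A.aS ha, A.dS ha, ← map_add, dT, add_sub_cancel]

theorem La.tau (i : ι ⊕ Fin r) (h : ∀ g, tt (g * gn Y n i) - tt g ∈ a) :
    ∀ t ∈ tauP (Y.G'.rcr r) Sum.inl i, ph Y n a t = 0 := by
  have ha' := ha
  rcases ha' with rfl | ⟨Z, a1, -⟩
  · exact fun _ _ => Subsingleton.elim _ _
  obtain ⟨e1, e2, e3⟩ := N_ent Z (k := gn Y n i) fun g => by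
    rw [← a1.t, ← a1.t]; exact Ideal.Quotient.eq.2 (h g)
  obtain ⟨p1, p2⟩ := A.fc.pov _ Z _ a1
  rintro _ ((rfl | rfl) | ⟨k, rfl⟩ | ⟨k, rfl⟩)
  · rw [map_sub, A.aS ha, (p1 _).1, e1, map_one, sub_self]
  · rw [map_sub, A.dS ha, (p1 _).2, e2, map_one, sub_self]
  · exact (A.xS ha i k).trans ((p2 _ _).trans (e3 _).2)
  · exact (A.xS ha k i).trans ((p2 _ _).trans (e3 _).1)

end ent

section mods
variable {n : ℕ} {N : Type} [AddCommGroup N] [Module (Tg O) N] [Module (PP O ι r) N]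
  (c : Ac (gg Y n) (ph Y n) N)
include c

theorem La.unr (g : Gd (gg Y n) N) (l : L.C)
    (h : ∀ x (w : N), (tt (x * L.τ l) : Tg O) • w = (tt x : Tg O) • w) :
    ∀ t ∈ (Y.rd ϖ).τP l, ∀ w : N, t • w = 0 := fun t ht w =>
  ((A.tw.fm n).ann c g w t).2 (A.tau (g w) (Sum.inl (Y.G'.iτ l)) (fun x =>
    (mem_torsionOf_iff _ _).2 (by
      change (tt (x * Y.G'.γ (Y.G'.iτ l)) - tt x : Tg O) • w = 0
      rw [Y.G'.hτ, sub_smul, h, sub_self])) t ht)

theorem La.new (l : L.C) (k : ℕ) (w : N) :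
    (Y.rd ϖ).DP l ^ k • w = (tt (L.φ l) : Tg O) ^ k • w :=
  c.all (fun a ha => by
    rw [map_pow, map_pow, ← Y.G'.hφ]
    exact congrArg (· ^ k) (A.trS ha (Sum.inl (Y.G'.iφ l)))) w

theorem La.tn (i : Fin r) (w : N) : io O _ r (Y.tn n i) • w = (tt (Y.τq n i) : Tg O) • w := by
  refine c.all (fun a ha => ?_) w
  have k := A.hq (n := n) ha
  rcases ha with rfl | ⟨Z, a1, a2, -⟩
  · exact Subsingleton.elim _ _
  refine ((A.ok.tn n i _ Z ((ph Y n a).comp (io O _ r)) a2 ⟨fun o => ?_, fun z => ?_⟩).1).trans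
    (a1.t _).symm
  · exact (congrArg (ph Y n a) (MvPowerSeries.rename_C _ o)).trans ((k.c o).trans (a1.c o))
  · exact (congrArg (ph Y n a) (MvPowerSeries.rename_X _ z)).trans
      ((k.x _).trans (A.fc.val a1 _ _ z))

end mods

section fam
variable {N : ℕ → Type} [∀ n, AddCommGroup (N n)] [∀ n, Module (Tg O) (N n)]
  [∀ n, Module (PP O ι r) (N n)] (c : ∀ n, Ac (gg Y n) (ph Y n) (N n))
  (dia : ∀ n, Dia (O := O) n (Y.τq n) (N n))
include c dia

/-- the hypothesis of `RGAL` -/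
theorem La.gal (g : ∀ n, Gd (gg Y n) (N n)) (W : Set (Tg O)) (hW : ∀ t ∈ W, t ∈ mT L.r)
    (hk : ∀ t ∈ W, ∀ n (w : N n), t • w = 0) (n k : ℕ) :
    ∃ a : Ideal (Tg O), Gp S L (Finset.univ.image (Y.q n)) r a ∧ (∀ t ∈ W, t ∈ a) ∧
      (∀ i, dd (Y.τq n i) - (1 + yy i) * (tt (Y.τq n i) - (1 + yy i)) ∈ a) ∧
      ∀ Ψ : PP O ι r →+* Tg O ⧸ a, Hm ((Ideal.Quotient.mk a).comp MvPolynomial.C)
        (fun z => Ideal.Quotient.mk a (Y.G'.vP (Y.τ' n) z)) Ψ →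
        RingHom.ker Ψ ≤ Module.annihilator (PP O ι r) (Du N n) ⊔ maximalIdeal (PP O ι r) ^ k := by
  obtain ⟨a, ha, a1, a2, a3⟩ := (A.tw.fm n).chev (c n) (g n) (Or.inr (A.fc.gmT _ _)) k
  obtain ⟨m, hm⟩ := A.fc.nil' ha
  refine ⟨a, ha.resolve_left fun e => ?_, fun t ht => a2 t (hW t ht) (hk t ht n),
    fun i => a2 _ ?_ fun w => by rw [sub_smul, (dia n).dq, sub_self], fun Ψ h => ?_⟩
  · have := A.fc.mem_mT.1 (a1 (e ▸ Submodule.mem_top : (1 : Tg O) ∈ a))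
    rw [map_one, map_one] at this
    exact one_ne_zero this
  · obtain ⟨P, b, c'⟩ := A.ok.ine n i
    rw [A.fc.mem_mT]
    simp only [map_sub, map_mul, map_add, map_one, evt, evd, evy]
    rw [A.fc.unr _ b.1 (A.ok.gn n i).1 P b.2.1 b.2.2 _ c', Matrix.det_one, Matrix.trace_one,
      Fintype.card_fin, map_zero, map_one, map_natCast]
    norm_num
  · rw [ph_eq hm (A.fc.vP_mem Y.G' (A.ok.gn n)) h, ann_dual]
    exact a3

/-- the relation between the trace and the parameters -/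
theorem La.rel {a : Fin r ⊕ Fin r → PP O ι r}
    (hu : ∀ i, Cv (Y.U : Filter ℕ) (fun n => uu lam Y.τq n i) (a i)) (i : Fin r) :
    io O _ r (Y.ta i) - (1 + X (Sum.inr i)) * (2 + a (Sum.inr i)) ∈ An Y.U (Du N) := by
  refine an_of Y.U (cv_sub (cv_map (io O _ r) (fun z hz h => hz (P022D.As.EB.io_unit h))
    (A.ok.cvt i)) (cv_mul (cv_const _) (cv_add (cv_const _) (hu (Sum.inr i))))) fun n w => ?_
  have e : (1 + X (Sum.inr i)) * (2 + uu lam Y.τq n (Sum.inr i)) =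
      lam n ((1 + yy i) * (1 + ee n (Y.τq n) i)) := by
    rw [← A.y n i, uu]
    simp only [map_add, map_mul, map_sub, map_one]
    change _ * (2 + (lam n (ee n (Y.τq n) i) - 1)) = _
    ring
  rw [sub_smul, A.tn (c n), e, A.tw.sm (c n), ← sub_smul]
  exact rel_t (dia n) i w

/-- the field `sep` of `ED3` -/
theorem La.sep {a : Fin r ⊕ Fin r → PP O ι r}
    (hu : ∀ i, Cv (Y.U : Filter ℕ) (fun n => uu lam Y.τq n i) (a i)) (i : Fin r)
    (𝔮 : Ideal (S1 O τ L ι S.T r)) (hq : 𝔮.IsPrime) (h1 : An Y.U (Du N) ≤ 𝔮.comap (Y.rd ϖ).ψ)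
    (h2 : 2 * (Y.rd ϖ).y i - io O _ r ((Y.rd ϖ).α i) ∈ 𝔮) : (Y.rd ϖ).ψ (a (Sum.inr i)) ∈ 𝔮 := by
  have h3 : ψ1 S L τ ι r _ ∈ 𝔮 := h1 (A.rel c dia hu i)
  have e1 : ψ1 S L τ ι r (io O _ r (Y.ta i)) = io O _ r (ψ0 S L τ ι r (Y.ta i)) :=
    (MvPowerSeries.rename_rename _ _ _).trans (MvPowerSeries.rename_rename
      (e0 r : Sy (ι ⊕ Fin r) ↪ V0 τ L ι S.T r)
      (Function.Embedding.inl : V0 τ L ι S.T r ↪ V0 τ L ι S.T r ⊕ Fin r) (Y.ta i)).symm
  have e2 : ψ1 S L τ ι r (X (Sum.inr i)) = y1 O _ i := MvPowerSeries.rename_X _ _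
  simp only [map_sub, map_mul, map_add, map_one, map_ofNat] at h3
  rw [e1, e2] at h3
  have h4 := add_mem h2 h3
  change 2 * y1 O _ i - io O _ r (ψ0 S L τ ι r (Y.ta i) - 2) + _ ∈ 𝔮 at h4
  rw [map_sub, map_ofNat] at h4
  have h5 : (1 + y1 O _ i) * ψ1 S L τ ι r (a (Sum.inr i)) ∈ 𝔮 := by
    rw [← neg_mem_iff]
    convert h4 using 1
    ring
  refine (hq.mem_or_mem h5).resolve_left fun h => hq.ne_top (Ideal.eq_top_of_isUnit_mem _ h ?_)
  rw [MvPowerSeries.isUnit_iff_constantCoeff, map_add, map_one, y1, MvPowerSeries.constantCoeff_X,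
    add_zero]
  exact isUnit_one

end fam

end Vale.Agent.P022G.Mod
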