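import Vale.Agent.P022G.Rows

/-!
# P022G: modules without the auxiliary primes as modules for all places
-/

set_option linter.all false

noncomputable section

namespace Vale.Agent.P022G.Mod

open NumberField IsLocalRing
open Vale.Agent.P022 Vale.Agent.P022G.R Vale.Agent.P022G.Loc
open Vale.Agent.P027M.S (Inert mx)
open Vale.Agent.P022E.Loc (Pl)
open Vale.Agent.P022E.As (Tg cc tt dd yy Gw Gm Lv2 mT Sb2)

variable {O F : Type} [CommRing O] [IsLocalRing O] [Field F] [CharP F 2] {ϖ : O} {S : Dat O F}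
  {L : Pl O} {X : Finset ℕ} {as : ℕ} {Q : Finset ℕ} {r : ℕ} {a : Ideal (Tg O)}

theorem gw_unr (hC : Cx S L X as) (hQ : ∀ l ∈ X, l ∉ Q) (h : Gw ϖ (subL L X) (S.T \ X) Q r a)
    (l : ℕ) (hl : l ∈ X) (g : GQ) : tt (g * L.τ l) - tt g ∈ a :=
  have hm : l ∈ L.W ∪ L.C := Finset.mem_union_right _ (hC.sub hl)
  h.unr l (hC.ok.pr l hm).1 (fun k => (Finset.mem_sdiff.1 k).2 hl) (hQ l hl) _ (hC.ok.hP l hm).1
    (hC.ok.hP l hm).2 _ (hC.ok.tm l hm).tau g

theorem tr_unit (hL : OkG L S) : IsUnit (L.r S.g0).trace := by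
  by_contra k
  have h1 := (hL.ker _).2 k
  have h2 := hL.lift S.g0
  rw [Matrix.trace_fin_two, map_add] at h1
  refine S.dne ?_
  rw [← h2]
  exact (CharTwo.add_eq_zero).1 h1

theorem gw_sub (hC : Cx S L X as) (hQ : ∀ l ∈ X, l ∉ Q) (h : Gw ϖ (subL L X) (S.T \ X) Q r a) :
    Gw ϖ L S.T Q r a :=
  { fin := h.fin, nil0 := h.nil0, nilt := h.nilt, nild := h.nild, nily := h.nily, t1 := h.t1
    tc := h.tc, tm := h.tm, d1 := h.d1, dm := h.dm, opn := h.opn, clt := h.clt, yz := h.yz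
    unr := fun l h1 h2 => h.unr l h1 fun k => h2 (Finset.mem_sdiff.1 k).1
    cld := fun g hg => by
      rcases hg with k | k | ⟨l, hl, rfl⟩ | k
      · exact h.cld g (Or.inl k)
      · exact h.cld g (Or.inr (Or.inl k))
      · by_cases hx : l ∈ X
        · have hm : l ∈ L.W ∪ L.C := Finset.mem_union_right _ (hC.sub hx)
          rw [hC.unr l (hC.ok.pr l hm).1 (Or.inr hx) _ (hC.ok.hP l hm).1 (hC.ok.hP l hm).2 _
            (hC.ok.tm l hm).tau, Matrix.det_one, ← Ideal.Quotient.eq_zero_iff_mem]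
          have e : ∀ g, Ideal.Quotient.mk a (tt (g * L.τ l)) = Ideal.Quotient.mk a (tt g) :=
            fun g => Ideal.Quotient.eq.2 (gw_unr hC hQ h l hx g)
          have e1 := Ideal.Quotient.eq.2 (h.tm S.g0 (L.τ l))
          have e2 := e 1
          have e3 := e (S.g0 * (L.τ l)⁻¹)
          have e4 := Ideal.Quotient.eq.2 h.t1
          rw [one_mul, e4] at e2
          rw [inv_mul_cancel_right] at e3
          rw [map_mul, map_add, map_mul, e, e2, ← e3, map_ofNat] at e1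
          obtain ⟨k, hk⟩ := h.nilt S.g0
          have hu : IsUnit (Ideal.Quotient.mk a (tt S.g0)) := by
            have n1 : IsNilpotent (Ideal.Quotient.mk a (tt S.g0 - cc (L.r S.g0).trace)) :=
              ⟨k, by rw [← map_pow]; exact Ideal.Quotient.eq_zero_iff_mem.2 hk⟩
            have := n1.isUnit_add_right_of_commute (((tr_unit hC.ok).map
              (MvPolynomial.C : O →+* Tg O)).map (Ideal.Quotient.mk a)) (Commute.all _ _)
            rw [← map_add] at this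
            have e5 : (tt S.g0 - cc (L.r S.g0).trace + MvPolynomial.C (L.r S.g0).trace : Tg O) =
              tt S.g0 := sub_add_cancel _ _
            rwa [e5] at this
          refine hu.mul_left_eq_zero.1 ?_
          have c1 : (cc (1 : O) : Tg O) = 1 := map_one MvPolynomial.C
          rw [c1, map_sub, map_one]
          linear_combination -e1
        · refine h.cld _ (Or.inr (Or.inr (Or.inl ⟨l, ?_, rfl⟩)))
          rcases Finset.mem_union.1 hl with k | k
          · exact Finset.mem_union_left _ k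
          · exact Finset.mem_union_right _ (Finset.mem_sdiff.2 ⟨k, hx⟩)
      · exact h.cld g (Or.inr (Or.inr (Or.inr k))) }

theorem gm_sub (hC : Cx S L X as) (hQ : ∀ l ∈ X, l ∉ Q) {Y : Type} [AddCommGroup Y]
    [Module (Tg O) Y] (h : Gm ϖ (subL L X) (S.T \ X) Q r Y) : Gm ϖ L S.T Q r Y :=
  fun w => gw_sub hC hQ (h w)

theorem gw_top {T : Finset ℕ} : Gw ϖ L T Q r (⊤ : Ideal (Tg O)) :=
  { fin := inferInstance
    nil0 := ⟨0, trivial⟩, nilt := fun _ => ⟨0, trivial⟩, nild := fun _ => ⟨0, trivial⟩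
    nily := fun _ => ⟨0, trivial⟩, t1 := trivial, tc := fun _ _ => trivial
    tm := fun _ _ => trivial, d1 := trivial, dm := fun _ _ => trivial
    opn := ⟨⊤, isOpen_univ, fun _ _ _ => trivial⟩
    unr := fun _ _ _ _ _ _ _ _ _ _ => trivial, clt := fun _ _ => trivial
    cld := fun _ _ => trivial, yz := fun _ _ => trivial }

theorem gm_zero {T : Finset ℕ} {Y : Type} [AddCommGroup Y] [Module (Tg O) Y] [Subsingleton Y] :
    Gm ϖ L T Q r Y := fun w => by
  have : Ideal.torsionOf (Tg O) Y w = ⊤ :=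
    eq_top_iff.2 fun t _ => (Ideal.mem_torsionOf_iff _ _).2 (Subsingleton.elim _ _)
  rw [this]
  exact gw_top

/-- the family with a zero module added -/
def Op {I : Type} (Y : I → Type) : Option I → Type
  | none => PUnit
  | some i => Y i

instance Op.acg {I : Type} (Y : I → Type) [∀ i, AddCommGroup (Y i)] : ∀ o, AddCommGroup (Op Y o)
  | none => inferInstanceAs (AddCommGroup PUnit)
  | some i => inferInstanceAs (AddCommGroup (Y i))

instance Op.mod {I : Type} (R : Type) [Ring R] (Y : I → Type) [∀ i, AddCommGroup (Y i)]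
    [∀ i, Module R (Y i)] : ∀ o, Module R (Op Y o)
  | none => inferInstanceAs (Module R PUnit)
  | some i => inferInstanceAs (Module R (Y i))

instance Op.sub {I : Type} (Y : I → Type) : Subsingleton (Op Y none) :=
  inferInstanceAs (Subsingleton PUnit)

/-- the exact sequences -/
def sesO {I : Type} (ses : I → I → I → Prop) (i j k : Option I) : Prop :=
  ∃ i' j' k', ses i' j' k' ∧ i = some i' ∧ j = some j' ∧ k = some k'

open Classical in
/-- the index of a type -/
def iO {I : Type} (X : Finset ℕ) (iJ : Finset (subL L X).C → I) (J : Finset L.C) : Option I :=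
  if ∀ a ∈ J, (a : ℕ) ∉ X then some (iJ (resJ X J)) else none

theorem iO_pos {I : Type} {iJ : Finset (subL L X).C → I} {J : Finset L.C}
    (h : ∀ a ∈ J, (a : ℕ) ∉ X) : iO X iJ J = some (iJ (resJ X J)) := if_pos h

theorem iO_neg {I : Type} {iJ : Finset (subL L X).C → I} {J : Finset L.C}
    (h : ¬ ∀ a ∈ J, (a : ℕ) ∉ X) : iO X iJ J = none := if_neg h

/-- the data of the forms side with a larger set of places -/
def upD (Sf : P022D.R.Dat O F) (T : Finset ℕ) (h : Sf.T ⊆ T) : P022D.R.Dat O F :=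
  { Sf with T := T, hl0 := h Sf.hl0 }

theorem mem_resJ {J : Finset L.C} {l : L.C} (h : (l : ℕ) ∉ X) :
    (⟨l.1, Finset.mem_sdiff.2 ⟨l.2, h⟩⟩ : (subL L X).C) ∈ resJ X J ↔ l ∈ J := by
  simp [resJ]

variable {I : Type} {Y0 : I → Type} {W0 : Type} [∀ i, AddCommGroup (Y0 i)]
  [∀ i, Module (Tg O) (Y0 i)] [AddCommGroup W0] [Module (Tg O) W0] {ses : I → I → I → Prop}
  {ig : I} {iJ : Finset (subL L X).C → I} {b : I → ℕ} {c n : ℕ} {q : Fin r → ℕ}
  {τ φ : Fin r → GQ} {Yb : I → Type} {Wc : Type} [∀ i, AddCommGroup (Yb i)]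
  [∀ i, Module (Tg O) (Yb i)] [AddCommGroup Wc] [Module (Tg O) Wc] {Sf : P022D.R.Dat O F}

theorem sb_zero {m : Ideal (Tg O)} {Y : Type} [AddCommGroup Y] [Module (Tg O) Y] [Subsingleton Y]
    (b : ℕ) : Sb2 m b Y :=
  ⟨fun _ => 0, fun _ _ _ => Subsingleton.elim _ _, fun w _ => by
    rw [Subsingleton.elim w 0]; exact zero_mem _⟩

/-- **one level, for all places** -/
theorem lv_sub (hC : Cx S L X as) (hT : Sf.T = S.T \ X) (hT' : Sf.T ⊆ S.T)
    (hq : ∀ i, q i ∉ X) (V : Lv2 ϖ Sf (subL L X) Y0 W0 ses ig iJ b c n q τ φ Yb Wc) :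
    Lv2 ϖ (upD Sf S.T hT') L (Op Y0) W0 (sesO ses) (some ig) (iO X iJ) (fun o => o.elim 0 b) c n
      q τ φ (Op Yb) Wc := by
  have hQ : ∀ l ∈ X, l ∉ Finset.univ.image q := fun l hl k => by
    obtain ⟨i, -, rfl⟩ := Finset.mem_image.1 k
    exact hq i hl
  refine ⟨V.hτ, V.hφ, ?_, gm_sub hC hQ (hT ▸ V.gmC), ?_, V.diaC, ?_, ?_, ?_, ?_, ?_, V.red,
    V.piC, V.flat, V.cyc, fun J l hl g => ?_, fun J l hl => ?_, V.desc⟩
  · rintro (_ | i)
    · exact gm_zero
    · exact gm_sub hC hQ (Y := Yb i) (hT ▸ V.gm i)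
  · rintro (_ | i)
    · exact ⟨fun _ _ => Subsingleton.elim _ _, fun _ _ => Subsingleton.elim _ _⟩
    · exact V.dia i
  · rintro _ _ _ ⟨i, j, k, h, rfl, rfl, rfl⟩
    exact V.ex i j k h
  · rintro (_ | i)
    · exact sb_zero _
    · exact V.sb i
  · rintro (_ | i)
    · exact fun _ => Subsingleton.elim _ _
    · exact V.pi i
  · rintro (_ | i)
    · exact fun w _ => ⟨w, Subsingleton.elim _ _⟩
    · exact V.free i
  · rintro (_ | i)
    · exact ⟨0, fun _ _ => Subsingleton.elim _ _, fun _ _ => Subsingleton.elim _ _,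
        fun _ _ => ⟨0, Subsingleton.elim _ _⟩⟩
    · exact V.fib i
  · by_cases h : ∀ a ∈ J, (a : ℕ) ∉ X
    · rw [iO_pos h]
      by_cases hx : (l : ℕ) ∈ X
      · intro (w : Yb _)
        have := (Ideal.mem_torsionOf_iff _ _).1 (gw_unr hC hQ (hT ▸ V.gm _ w) l hx g)
        exact sub_eq_zero.1 ((sub_smul _ _ w).symm.trans this)
      · exact V.unr _ ⟨l.1, Finset.mem_sdiff.2 ⟨l.2, hx⟩⟩ (fun k => hl ((mem_resJ hx).1 k)) g
    · rw [iO_neg h]
      exact fun _ => Subsingleton.elim _ _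
  · by_cases h : ∀ a ∈ J, (a : ℕ) ∉ X
    · rw [iO_pos h]
      exact V.new _ ⟨l.1, Finset.mem_sdiff.2 ⟨l.2, h l hl⟩⟩ ((mem_resJ (h l hl)).2 hl)
    · rw [iO_neg h]
      exact fun _ => Subsingleton.elim _ _

/-- level zero -/
theorem gm0_sub (hC : Cx S L X as) (h : ∀ i, Gm ϖ (subL L X) (S.T \ X) ∅ 0 (Y0 i)) :
    ∀ o, Gm ϖ L S.T ∅ 0 (Op Y0 o)
  | none => gm_zero
  | some i => gm_sub hC (fun _ _ => Finset.notMem_empty _) (Y := Y0 i) (h i)

theorem sb0_sub {m : Ideal (Tg O)} (h : ∀ i, ∃ b, Sb2 m b (Y0 i)) : ∀ o, ∃ b, Sb2 m b (Op Y0 o)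
  | none => ⟨0, sb_zero _⟩
  | some i => h i

theorem pi0_sub (h : ∀ i (w : Y0 i), cc ϖ • w = 0) : ∀ o (w : Op Y0 o), cc ϖ • w = 0
  | none => fun _ => Subsingleton.elim _ _
  | some i => h i

end Vale.Agent.P022G.Mod
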