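import Vale.Agent.P022D.As.Defs2
import Vale.Agent.P022D.As.Defs
import Vale.Agent.P022D.R.Gas

/-!
# P022G: the action of a complete ring through a family of finite quotients
-/

set_option linter.all false

open IsLocalRing Filter

noncomputable section

namespace Vale.Agent.P022G.Mod

open Vale.Agent.P022D Vale.Agent.P022D.As
open Vale.Agent.P022D.PA (Base)
open Ideal (torsionOf mem_torsionOf_iff)

variable {P T : Type} [CommRing P] [CommRing T]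

theorem cpt [Base P] {α : Type} [Nonempty α] (A : α → Set P)
    (dir : ∀ i j, ∃ k, A k ⊆ A i ∧ A k ⊆ A j) (ne : ∀ i, (A i).Nonempty)
    (cl : ∀ i, ∃ k : ℕ, ∀ x ∈ A i, ∀ y, x - y ∈ maximalIdeal P ^ k → y ∈ A i) :
    ∃ y, ∀ i, y ∈ A i := by
  letI : Preorder α := Preorder.lift A
  obtain ⟨U, hU⟩ := R.exists_ultra (α := α) dir
  choose x hx using ne
  haveI := Base.cpl (P := P)
  have hf : Finite (P ⧸ maximalIdeal P) := Base.fin (P := P)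
  obtain ⟨y, hy⟩ := R.ulim_adic U x (maximalIdeal P) fun k =>
    Ideal.finite_quotient_pow (IsNoetherian.noetherian _) k
  refine ⟨y, fun i => ?_⟩
  obtain ⟨k, hk⟩ := cl i
  obtain ⟨p, h1, h2⟩ := ((hU i).and (hy k)).exists
  exact hk _ (h1 (hx p)) y h2

/-- a compatible family of maps onto the quotients by the good ideals -/
structure Fm [IsLocalRing P] (𝔊 : Set (Ideal T)) (Φ : ∀ a : Ideal T, P →+* T ⧸ a) (m : Ideal T) :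
    Prop where
  inf : ∀ a ∈ 𝔊, ∀ b ∈ 𝔊, a ⊓ b ∈ 𝔊
  fac : ∀ a ∈ 𝔊, ∀ b ∈ 𝔊, a ≤ b → ∀ f t, Φ a f = Ideal.Quotient.mk a t →
    Φ b f = Ideal.Quotient.mk b t
  sur : ∀ a ∈ 𝔊, Function.Surjective (Φ a)
  ker : ∀ a ∈ 𝔊, ∃ k : ℕ, ∀ u ∈ maximalIdeal P ^ k, Φ a u = 0
  res : ∃ a ∈ 𝔊, ∀ f t, Φ a f = Ideal.Quotient.mk a t → (f ∈ maximalIdeal P ↔ t ∈ m)

/-- the annihilators of the elements are good -/
def Gd (𝔊 : Set (Ideal T)) (Y : Type) [AddCommGroup Y] [Module T Y] : Prop :=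
  ∀ w : Y, torsionOf T Y w ∈ 𝔊

/-- **the two actions are compatible** -/
def Ac (𝔊 : Set (Ideal T)) (Φ : ∀ a : Ideal T, P →+* T ⧸ a) (Y : Type) [AddCommGroup Y]
    [Module T Y] [Module P Y] : Prop :=
  ∀ w : Y, ∃ a ∈ 𝔊, ∀ f t, Φ a f = Ideal.Quotient.mk a t → f • w = t • w

/-- the correspondences -/
def GG (𝔊 : Set (Ideal T)) (Φ : ∀ a : Ideal T, P →+* T ⧸ a) : Set (Subring (P × T)) :=
  {Γ | ∃ a ∈ 𝔊, Γ = gr (Φ a) (Ideal.Quotient.mk a)}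

/-- the elements which vanish in all good quotients -/
def Kr (𝔊 : Set (Ideal T)) (Φ : ∀ a : Ideal T, P →+* T ⧸ a) : Ideal P :=
  ⨅ a ∈ 𝔊, RingHom.ker (Φ a)

variable {𝔊 : Set (Ideal T)} {Φ : ∀ a : Ideal T, P →+* T ⧸ a} {m : Ideal T}
  {Y Y' : Type} [AddCommGroup Y] [Module T Y] [AddCommGroup Y'] [Module T Y']

theorem mem_Kr {f : P} : f ∈ Kr 𝔊 Φ ↔ ∀ a ∈ 𝔊, Φ a f = 0 := by
  simp [Kr, Ideal.mem_iInf, RingHom.mem_ker]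

theorem ac_iff [Module P Y] : Ac 𝔊 Φ Y ↔ Cmp (GG 𝔊 Φ) Y :=
  forall_congr' fun w => ⟨fun ⟨a, ha, h⟩ => ⟨_, ⟨a, ha, rfl⟩, h⟩,
    fun ⟨_, ⟨a, ha, rfl⟩, h⟩ => ⟨a, ha, h⟩⟩

theorem Ac.all [Module P Y] (h : Ac 𝔊 Φ Y) {f : P} {t : T}
    (e : ∀ a ∈ 𝔊, Φ a f = Ideal.Quotient.mk a t) (w : Y) : f • w = t • w := by
  obtain ⟨a, ha, k⟩ := h w
  exact k f t (e a ha)

theorem Ac.mono [Module P Y] {𝔊' : Set (Ideal T)} {Φ' : ∀ a : Ideal T, P →+* T ⧸ a}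
    (h : Ac 𝔊 Φ Y) (e : ∀ a ∈ 𝔊, a ∈ 𝔊' ∧ Φ' a = Φ a) : Ac 𝔊' Φ' Y := fun w => by
  obtain ⟨a, ha, k⟩ := h w
  exact ⟨a, (e a ha).1, fun f t c => k f t ((e a ha).2 ▸ c)⟩

theorem Ac.kr [Module P Y] (h : Ac 𝔊 Φ Y) : Kr 𝔊 Φ ≤ Module.annihilator P Y := fun f hf =>
  Module.mem_annihilator.2 fun w => (h.all (t := 0) (fun a ha => by
    rw [mem_Kr.1 hf a ha, map_zero]) w).trans (zero_smul _ _)

/-- every symbol has a universal lift -/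
theorem Fm.mu [Base P] (h : Fm 𝔊 Φ m) (t : T) :
    ∃ u, ∀ a ∈ 𝔊, Φ a u = Ideal.Quotient.mk a t := by
  obtain ⟨a0, h0, -⟩ := h.res
  haveI : Nonempty 𝔊 := ⟨⟨_, h0⟩⟩
  obtain ⟨y, hy⟩ := cpt (fun a : 𝔊 => {u | Φ a.1 u = Ideal.Quotient.mk a.1 t})
    (fun a b => ⟨⟨_, h.inf _ a.2 _ b.2⟩,
      fun x hx => h.fac _ (h.inf _ a.2 _ b.2) _ a.2 inf_le_left _ _ hx,
      fun x hx => h.fac _ (h.inf _ a.2 _ b.2) _ b.2 inf_le_right _ _ hx⟩)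
    (fun a => h.sur _ a.2 _) fun a => by
      obtain ⟨k, hk⟩ := h.ker _ a.2
      refine ⟨k, fun x hx y hxy => ?_⟩
      have h1 := hk _ hxy
      rw [map_sub, sub_eq_zero] at h1
      exact h1.symm.trans hx
  exact ⟨y, fun a ha => hy ⟨a, ha⟩⟩

variable [IsLocalRing P]

theorem Fm.dir (h : Fm 𝔊 Φ m) : Dir (GG 𝔊 Φ) where
  sur := by
    rintro _ ⟨a, ha, rfl⟩ f
    obtain ⟨t, ht⟩ := Ideal.Quotient.mk_surjective (Φ a f)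
    exact ⟨t, mem_gr.2 ht.symm⟩
  dir := by
    rintro _ ⟨a, ha, rfl⟩ _ ⟨b, hb, rfl⟩
    exact ⟨_, ⟨_, h.inf a ha b hb, rfl⟩,
      fun x hx => h.fac _ (h.inf a ha b hb) _ ha inf_le_left _ _ hx,
      fun x hx => h.fac _ (h.inf a ha b hb) _ hb inf_le_right _ _ hx⟩

theorem Fm.ne (h : Fm 𝔊 Φ m) : (GG 𝔊 Φ).Nonempty := by
  obtain ⟨a, ha, -⟩ := h.res
  exact ⟨_, a, ha, rfl⟩

theorem ad_of {a : Ideal T} {w : Y} (h : ∀ t ∈ a, t • w = 0) :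
    Ad (gr (Φ a) (Ideal.Quotient.mk a)) w :=
  fun t ht => h t (Ideal.Quotient.eq_zero_iff_mem.1 ((mem_gr.1 ht).symm.trans (map_zero _)))

/-- **the action exists** -/
theorem Fm.mod (h : Fm 𝔊 Φ m) (hY : Gd 𝔊 Y) : ∃ _ : Module P Y, Ac 𝔊 Φ Y := by
  obtain ⟨i, k⟩ := h.dir.exists_mod (V := Y) fun w =>
    ⟨_, ⟨_, hY w, rfl⟩, ad_of fun t ht => (mem_torsionOf_iff _ _).1 ht⟩
  exact ⟨i, ac_iff.2 k⟩

variable [Module P Y] [Module P Y']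

/-- the formula holds for every good ideal which kills the element -/
theorem Fm.act (h : Fm 𝔊 Φ m) (c : Ac 𝔊 Φ Y) {a : Ideal T} (ha : a ∈ 𝔊) {w : Y}
    (hw : ∀ t ∈ a, t • w = 0) {f : P} {t : T} (e : Φ a f = Ideal.Quotient.mk a t) :
    f • w = t • w := (ac_iff.1 c).eq h.dir ⟨a, ha, rfl⟩ (ad_of hw) e

/-- the annihilator of an element -/
theorem Fm.ann (h : Fm 𝔊 Φ m) (c : Ac 𝔊 Φ Y) (g : Gd 𝔊 Y) (w : Y) (f : P) :
    f • w = 0 ↔ Φ (torsionOf T Y w) f = 0 := by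
  obtain ⟨t, ht⟩ := Ideal.Quotient.mk_surjective (Φ (torsionOf T Y w) f)
  rw [h.act c (g w) (fun t ht => (mem_torsionOf_iff _ _).1 ht) ht.symm, ← ht,
    Ideal.Quotient.eq_zero_iff_mem, mem_torsionOf_iff]

theorem Fm.mem_ann (h : Fm 𝔊 Φ m) (c : Ac 𝔊 Φ Y) (g : Gd 𝔊 Y) (f : P) :
    f ∈ Module.annihilator P Y ↔ ∀ w : Y, Φ (torsionOf T Y w) f = 0 := by
  rw [Module.mem_annihilator]
  exact forall_congr' fun w => h.ann c g w f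

/-- linear maps -/
def Fm.lin (h : Fm 𝔊 Φ m) (c : Ac 𝔊 Φ Y) (c' : Ac 𝔊 Φ Y') (φ : Y →ₗ[T] Y') : Y →ₗ[P] Y' :=
  (ac_iff.1 c).lin h.dir (ac_iff.1 c') φ

theorem Fm.pi (h : Fm 𝔊 Φ m) (c : Ac 𝔊 Φ Y) (ι : Type) [Finite ι] : Ac 𝔊 Φ (ι → Y) :=
  ac_iff.2 ((ac_iff.1 c).pi h.dir h.ne ι)

theorem Fm.dis (h : Fm 𝔊 Φ m) (c : Ac 𝔊 Φ Y) : Dis P Y := fun w => by
  obtain ⟨a, ha, e⟩ := c w
  obtain ⟨k, hk⟩ := h.ker a ha
  exact ⟨k, fun u hu => (e u 0 ((hk u hu).trans (map_zero _).symm)).trans (zero_smul _ _)⟩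

/-- on finitely many elements a scalar acts as a symbol -/
theorem Fm.fin (h : Fm 𝔊 Φ m) (c : Ac 𝔊 Φ Y) (s : Finset Y) (f : P) :
    ∃ t : T, (f ∈ maximalIdeal P ↔ t ∈ m) ∧ ∀ w ∈ s, f • w = t • w := by
  obtain ⟨Γ, k, e⟩ := (ac_iff.1 c).fin h.dir h.ne s
  obtain ⟨a, ha, r⟩ := h.res
  obtain ⟨Γ', k', i1, i2⟩ := h.dir.dir Γ k _ ⟨a, ha, rfl⟩
  obtain ⟨t, ht⟩ := h.dir.sur _ k' f
  exact ⟨t, r f t (i2 ht), fun w hw => e w hw f t (i1 ht)⟩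

/-- `lam` lifts all symbols -/
def Lm (𝔊 : Set (Ideal T)) (Φ : ∀ a : Ideal T, P →+* T ⧸ a) (lam : T →+* P) : Prop :=
  ∀ a ∈ 𝔊, ∀ t, Φ a (lam t) = Ideal.Quotient.mk a t

variable {lam : T →+* P}

theorem Lm.smul (l : Lm 𝔊 Φ lam) (c : Ac 𝔊 Φ Y) (t : T) (w : Y) : lam t • w = t • w :=
  c.all (fun a ha => l a ha t) w

theorem Lm.max (l : Lm 𝔊 Φ lam) (h : Fm 𝔊 Φ m) (t : T) : lam t ∈ maximalIdeal P ↔ t ∈ m := by
  obtain ⟨a, ha, r⟩ := h.res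
  exact r _ _ (l a ha t)

theorem Fm.sb (h : Fm 𝔊 Φ m) (l : Lm 𝔊 Φ lam) (c : Ac 𝔊 Φ Y) {b : ℕ}
    (hs : ∃ s : Fin b → Y, (∀ j, ∀ u ∈ m, u • s j = 0) ∧
      ∀ w : Y, (∀ u ∈ m, u • w = 0) → w ∈ Submodule.span T (Set.range s)) : Sb P b Y := by
  obtain ⟨s, h1, h2⟩ := hs
  refine ⟨s, fun j u hu => ?_, fun w hw => ?_⟩
  · obtain ⟨t, a, e⟩ := h.fin c {s j} u
    rw [e _ (Finset.mem_singleton_self _), h1 j t (a.1 hu)]
  · obtain ⟨x, hx⟩ := (Submodule.mem_span_range_iff_exists_fun _).1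
      (h2 w fun u hu => (l.smul c u w).symm.trans (hw _ ((l.max h u).2 hu)))
    refine (Submodule.mem_span_range_iff_exists_fun _).2 ⟨fun j => lam (x j), ?_⟩
    rw [← hx]
    exact Finset.sum_congr rfl fun j _ => l.smul c _ _

theorem sb_pi {b : ℕ} (h : Sb P b Y) (ι : Type) [Fintype ι] : ∃ b, Sb P b (ι → Y) := by
  classical
  obtain ⟨s, h1, h2⟩ := h
  let e := Fintype.equivFin (ι × Fin b)
  refine ⟨_, fun j => Pi.single (e.symm j).1 (s (e.symm j).2), fun j u hu => ?_, fun w hw => ?_⟩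
  · rw [← Pi.single_smul, h1 _ u hu, Pi.single_zero]
  · rw [← Finset.univ_sum_single w]
    refine Submodule.sum_mem _ fun i _ => ?_
    obtain ⟨x, hx⟩ := (Submodule.mem_span_range_iff_exists_fun _).1
      (h2 (w i) fun u hu => congrFun (hw u hu) i)
    rw [← hx, ← LinearMap.coe_single P (fun _ : ι => Y), map_sum]
    refine Submodule.sum_mem _ fun j _ => ?_
    rw [map_smul]
    exact Submodule.smul_mem _ _ (Submodule.subset_span ⟨e (i, j), by simp⟩)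

end Vale.Agent.P022G.Mod
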