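import Vale.Agent.P022G.Mod.Ph
import Vale.Agent.P022G.Rows
import Vale.Agent.P022G.Kd.A
import Vale.Agent.P022G.Crv.Uni

/-!
# P022G: the ideals of pseudo objects form a family
-/

set_option linter.all false

open IsLocalRing Filter MvPowerSeries NumberField

noncomputable section

namespace Vale.Agent.P022G.Mod

open Vale.Agent.P022 Vale.Agent.P022G.R Vale.Agent.P022G.Loc
open Vale.Agent.P022E.As (Tg cc tt dd yy Gw mT ev0 pk)
open Vale.Agent.P027M.S (Inert mx)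
open Vale.Agent.P022D.Core (PS io y1 Coef)
open Vale.Agent.P022D.Sel (M2)
open Vale.Agent.P022E.Loc (Pl)
open Vale.Agent.P022E.GW (Ov Gn)
open Vale.Agent.P022F.End0 (evc evt evd evy gw_pk)
open Ideal (torsionOf mem_torsionOf_iff)

variable {O F : Type} [CommRing O] [IsDomain O] [IsDiscreteValuationRing O] [Coef O] [Field F]
  [CharP F 2]

/-- the good ideals -/
def GP (S : Dat O F) (L : Pl O) (Q : Finset ℕ) (r : ℕ) : Set (Ideal (Tg O)) :=
  {a | a = ⊤ ∨ Gp S L Q r a}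

/-- the facts on pseudo objects -/
structure Fc (ϖ : O) (S : Dat O F) (L : Pl O) : Prop where
  irr : Irreducible ϖ
  ok : OkG L S
  unr : ∀ l : ℕ, l.Prime → l ∉ S.T → ∀ P : Ideal (𝓞 Qb), P.IsPrime →
    (l : 𝓞 Qb) ∈ P → ∀ s, Inert P s → L.r s = 1
  pov : ∀ (B : Type) [CommRing B] (Z : PO S B) (u : Tg O →+* B), Z.Std u →
    (∀ g, u (aT S L g) = Z.a g ∧ u (dT S L g) = Z.b g) ∧ ∀ g h, u (xT S L g h) = Z.x g h
  gpw : ∀ (Q : Finset ℕ) (r : ℕ) (a : Ideal (Tg O)), a ≠ ⊤ → Gw ϖ L S.T Q r a → Gp S L Q r a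
  ker : ∀ (Q : Finset ℕ) (r : ℕ) (B : Type) [CommRing B] (Z : PO S B) (u : Tg O →+* B), Z.Std u →
    Z.Cl L Q → (∀ i, Z.π (u (yy i)) = 0) → (∀ i, r ≤ i → u (yy i) = 0) →
    Gp S L Q r (RingHom.ker u)
  inf : ∀ Q r a b, Gp S L Q r a → Gp S L Q r b → Gp S L Q r (a ⊓ b)

theorem fc_of (h1 : POV) (h2 : GPW) (h3 : GPO) :
    All fun O F _ _ _ _ _ _ _ ϖ S L X as β τ ι' _ _ _ K ι _ G => Fc ϖ S L := by
  intro O F _ _ _ _ _ _ _ ϖ S L X as β τ ι' _ _ _ K ι _ G hϖ hC hK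
  exact ⟨hϖ, hC.cx.ok, fun l a b => hC.cx.unr l a (Or.inl b),
    h1 O F ϖ S L X as β τ ι' K ι G hϖ hC hK, h2 O F ϖ S L X as β τ ι' K ι G hϖ hC hK,
    (h3 O F ϖ S L X as β τ ι' K ι G hϖ hC hK).1, (h3 O F ϖ S L X as β τ ι' K ι G hϖ hC hK).2.1⟩

variable {ϖ : O} {S : Dat O F} {L : Pl O} (H : Fc ϖ S L)
include H

section po
variable {B : Type} [CommRing B] {Z : PO S B} {u : Tg O →+* B}

theorem Fc.res (h : Z.Std u) (hy : ∀ i, Z.π (u (yy i)) = 0) (t : Tg O) :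
    Z.π (u t) = S.red (ev0 L.r t) := by
  refine congrArg (fun f : Tg O →+* F => f t) (MvPolynomial.ringHom_ext (f := Z.π.comp u)
    (g := S.red.comp (ev0 L.r)) (fun o => ?_) fun s => ?_)
  · exact (congrArg Z.π (h.c o)).trans ((Z.alg o).trans (congrArg S.red (evc _ o).symm))
  · rcases s with s | s | s
    · refine (congrArg Z.π (h.t s)).trans ((Z.π_t s).trans
        (Eq.trans ?_ (congrArg S.red (evt _ s).symm)))
      rw [← H.ok.lift, AddMonoidHom.map_trace]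
    · refine (congrArg Z.π (h.d s)).trans ((Z.π_d s).trans
        (Eq.trans ?_ (congrArg S.red (evd _ s).symm)))
      rw [← H.ok.lift, RingHom.map_det]
      rfl
    · exact (hy s).trans ((map_zero _).symm.trans (congrArg S.red (evy _ s).symm))

theorem Fc.val (h : Z.Std u) {ι : Type} (rc : ι → M2 O) (γ : ι → GQ) (s : Sy ι) :
    u (vT S L rc γ s) = Z.val rc γ s := by
  obtain ⟨a, b⟩ := H.pov B Z u h
  rcases s with s | s | s
  · exact (map_sub u _ _).trans (congrArg₂ _ (a _).1 (h.c _))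
  · exact (map_sub u _ _).trans (congrArg₂ _ (a _).2 (h.c _))
  · exact (map_sub u _ _).trans (congrArg₂ _ (b _ _) (h.c _))

omit H in
theorem val_res (Z : PO S B) {ι : Type} {rc : ι → M2 O} {γ : ι → GQ}
    (h : ∀ i, (rc i).map S.red = mx S.rb (γ i)) (s : Sy ι) : Z.π (Z.val rc γ s) = 0 := by
  rcases s with s | s | s
  · exact (map_sub _ _ _).trans (by rw [Z.ra, Z.alg, ← h]; exact sub_self _)
  · exact (map_sub _ _ _).trans (by rw [Z.rb, Z.alg, ← h]; exact sub_self _)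
  · exact (map_sub _ _ _).trans (by rw [Z.rx, Z.alg, ← h, ← h, map_mul]; exact sub_self _)

omit H in
theorem N_ent (Z : PO S B) {k : GQ} (hk : ∀ g, Z.t (g * k) = Z.t g) :
    Z.a k = 1 ∧ Z.b k = 1 ∧ ∀ g, Z.x g k = 0 ∧ Z.x k g = 0 := by
  have h := Z.N_inv k (Z.mem_N.2 hk)
  have a1 : Z.a k = 1 := by rw [← one_mul k, (h 1).1, Z.gm.a1]
  have b1 : Z.b k = 1 := by rw [← one_mul k, (h 1).2, Z.gm.b1]
  refine ⟨a1, b1, fun g => ⟨?_, ?_⟩⟩
  · have := Z.gm.am g k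
    rw [(h g).1, a1, mul_one] at this
    linear_combination -this
  · have := Z.gm.bm g k
    rw [(h g).2, b1, mul_one] at this
    linear_combination -this

end po

variable {Q : Finset ℕ} {r : ℕ} {a : Ideal (Tg O)}

theorem Fc.mem_mT {t : Tg O} : t ∈ mT L.r ↔ S.red (ev0 L.r t) = 0 := (H.ok.ker _).symm

theorem Fc.nil (h : Gp S L Q r a) : a ≤ mT L.r ∧ ∃ n : ℕ, mT L.r ^ n ≤ a := by
  obtain ⟨Z, h1, -, h3, -⟩ := h
  obtain ⟨n, hn⟩ := Z.nil
  refine ⟨fun t ht => H.mem_mT.2 ?_, n, ?_⟩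
  · rw [← H.res h1 h3, Ideal.Quotient.eq_zero_iff_mem.2 ht, map_zero]
  · have e : mT L.r ≤ (RingHom.ker Z.π).comap (Ideal.Quotient.mk a) := fun t ht =>
      (H.res h1 h3 t).trans (H.mem_mT.1 ht)
    refine (Ideal.pow_right_mono e n).trans ((Ideal.le_comap_pow _ n).trans ?_)
    rw [hn, ← RingHom.ker_eq_comap_bot, Ideal.mk_ker]

theorem Fc.nil' (h : a ∈ GP S L Q r) : ∃ n : ℕ, mT L.r ^ n ≤ a :=
  h.elim (fun e => ⟨0, e ▸ le_top⟩) fun k => (H.nil k).2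

omit H [IsDomain O] [IsDiscreteValuationRing O] [Coef O] [CharP F 2] in
theorem gp_mono (h : Gp S L ∅ 0 a) (Q : Finset ℕ) (r : ℕ) : Gp S L Q r a := by
  obtain ⟨Z, h1, h2, h3, h4⟩ := h
  exact ⟨Z, h1, ⟨h2.d2, h2.dc, h2.dl, h2.ty, fun l a b _ => h2.unr l a b (Finset.notMem_empty l)⟩,
    h3, fun i _ => h4 i (Nat.zero_le i)⟩

theorem Fc.pt (k : ℕ) (Q : Finset ℕ) (r : ℕ) : Gp S L Q r (pk ϖ L.r k) := by
  refine gp_mono (H.gpw ∅ 0 _ (fun e => ?_) (gw_pk H.irr H.ok.cont H.unr k)) Q r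
  have h1 : (1 : Tg O) ∈ pk ϖ L.r k := e ▸ Submodule.mem_top
  have h2 : ev0 L.r 1 ∈ Ideal.span {ϖ ^ (k + 1)} := h1
  rw [map_one, Ideal.mem_span_singleton, pow_succ] at h2
  exact H.irr.not_isUnit (isUnit_of_dvd_one ((Dvd.intro_left _ rfl).trans h2))

theorem Fc.pk0 : pk ϖ L.r 0 = mT L.r := by
  rw [Vale.Agent.P022D.As.pk, zero_add, pow_one, ← H.irr.maximalIdeal_eq]
  rfl

theorem Fc.gmT (Q : Finset ℕ) (r : ℕ) : Gp S L Q r (mT L.r) := H.pk0 ▸ H.pt 0 Q r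

theorem Fc.inf' (a : Ideal (Tg O)) (ha : a ∈ GP S L Q r) (b : Ideal (Tg O))
    (hb : b ∈ GP S L Q r) : a ⊓ b ∈ GP S L Q r := by
  rcases ha with rfl | ha
  · rwa [top_inf_eq]
  · rcases hb with rfl | hb
    · rw [inf_top_eq]; exact Or.inr ha
    · exact Or.inr (H.inf _ _ _ _ ha hb)

theorem Fc.gd {Y : Type} [AddCommGroup Y] [Module (Tg O) Y] (h : P022E.As.Gm ϖ L S.T Q r Y) :
    Gd (GP S L Q r) Y := fun w => by
  by_cases e : torsionOf (Tg O) Y w = ⊤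
  exacts [Or.inl e, Or.inr (H.gpw _ _ _ e (h w))]

theorem Fc.vT_mem {ι : Type} {rc : ι → M2 O} {γ : ι → GQ}
    (h : ∀ i, (rc i).map S.red = mx S.rb (γ i)) (s : Sy ι) : vT S L rc γ s ∈ mT L.r := by
  obtain ⟨Z, h1, -, h3, -⟩ := H.gmT ∅ 0
  rw [H.mem_mT, ← H.res h1 h3, H.val h1, val_res Z h]

theorem Fc.yy_mem (i : ℕ) : yy i ∈ mT L.r := by rw [H.mem_mT, evy, map_zero]

/-- the family which belongs to generators `γ` and further variables -/
theorem Fc.fm' {ι σ : Type} [Fintype σ] {rc : ι → M2 O} {γ : ι → GQ} (hG : Gen S Q γ)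
    (v : σ → Tg O) (hv : ∀ s, v s ∈ mT L.r) (h1 : ∀ s, ∃ z, v z = vT S L rc γ s)
    (h2 : ∀ i < r, ∃ z, v z = yy i) : Fm (GP S L Q r) (Ph v) (mT L.r) := by
  refine fm_of H.inf' hv (fun a ha => H.nil' ha) (fun a ha => ?_)
    ⟨_, Or.inr (H.gmT Q r), le_rfl⟩
  obtain ⟨n, hn⟩ := H.nil' ha
  have k := ph_hm hn hv
  rcases ha with rfl | ⟨Z, a1, a2, a3, a4⟩
  · exact fun y => ⟨0, Subsingleton.elim _ _⟩
  have g := fun g => Z.gen Q a2.unr γ hG rc (Ph v a).range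
    (fun o => ⟨C o, (k.c o).trans (a1.c o)⟩) (fun s => (h1 s).elim fun z e =>
      ⟨X z, (k.x z).trans (by rw [e, H.val a1])⟩) g 1
  intro y
  obtain ⟨t, rfl⟩ := Ideal.Quotient.mk_surjective y
  change _ ∈ (Ph v a).range
  induction t using MvPolynomial.induction_on with
  | C o => exact ⟨C o, k.c o⟩
  | add p q hp hq => rw [map_add]; exact add_mem hp hq
  | mul_X p s hp =>
    rw [map_mul]
    refine mul_mem hp ?_
    rcases s with s | s | s
    · exact (a1.t s).symm ▸ (g s).2.2.2.1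
    · exact (a1.d s).symm ▸ (g s).2.2.2.2
    · by_cases hs : s < r
      · obtain ⟨z, e⟩ := h2 s hs
        exact ⟨X z, (k.x z).trans (by rw [e]; rfl)⟩
      · exact ⟨0, (map_zero _).trans
          (Ideal.Quotient.eq_zero_iff_mem.2 (a4 s (not_lt.1 hs))).symm⟩

variable {κ ι : Type} {gk : κ → GQ} [Fintype ι] (G : Gs S L gk ι)

/-- the values of the variables of level zero -/
abbrev vA : Sy ι → Tg O := vT S L G.rc G.γ

theorem Fc.v0_mem (s : Sy ι) : vA G s ∈ mT L.r := H.vT_mem (fun i => H.ok.lift _) s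

/-- **level zero** -/
theorem Fc.fm0 : Fm (GP S L ∅ 0) (Ph (vA G)) (mT L.r) :=
  H.fm' (Crv.gen0 G) _ (H.v0_mem G) (fun s => ⟨s, rfl⟩) fun i hi => absurd hi (Nat.not_lt_zero i)

variable {q : Fin r → ℕ} {τ' : Fin r → GQ}
  (hq : ∀ i, q i ∉ S.T ∧ ∃ P, Ov (q i) P ∧ Gn (q i) P (τ' i))
include hq

theorem Fc.rcr (i : ι ⊕ Fin r) : (G.rcr r i).map S.red = mx S.rb (Sum.elim G.γ τ' i) := by
  rcases i with i | i
  · exact H.ok.lift _
  · obtain ⟨a, P, b, c⟩ := hq i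
    rw [Sum.elim_inr, ← H.ok.lift, H.unr _ b.1 a P b.2.1 b.2.2 _ c.1]
    rfl

theorem Fc.vP_mem (s : Sy (ι ⊕ Fin r) ⊕ Fin r) : G.vP τ' s ∈ mT L.r := by
  rcases s with s | s
  exacts [H.vT_mem (H.rcr G hq) s, H.yy_mem s]

/-- **level `q`** -/
theorem Fc.fm : Fm (GP S L (Finset.univ.image q) r) (Ph (G.vP τ')) (mT L.r) :=
  H.fm' (G.gen r q τ' hq) _ (H.vP_mem G hq) (fun s => ⟨Sum.inl s, rfl⟩)
    fun i hi => ⟨Sum.inr ⟨i, hi⟩, rfl⟩

theorem Fc.hmq {Q : Finset ℕ} {r' : ℕ} (ha : a ∈ GP S L Q r') : Hq (G.vP τ') a (Ph (G.vP τ') a) :=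
  (H.nil' ha).elim fun _ hn => ph_hm hn (H.vP_mem G hq)

/-- on the ideals of level zero the evaluation factors through the ring of level zero -/
theorem Fc.base {jr : PP O ι r →+* PS O (Sy ι)} (hj : Hm C (G.jv r) jr) (ha : a ∈ GP S L ∅ 0) :
    (Ph (vA G) a).comp jr = Ph (G.vP τ') a := by
  obtain ⟨n, hn⟩ := H.nil' ha
  have k := ph_hm hn (H.v0_mem G)
  refine ph_eq hn (H.vP_mem G hq) ⟨fun o => (congrArg _ (hj.c o)).trans (k.c o), fun s => ?_⟩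
  rcases ha with rfl | ⟨Z, a1, a2, a3, a4⟩
  · exact Subsingleton.elim _ _
  have k' : Hm Z.ι (Z.val G.rc G.γ) (Ph (vA G) a) :=
    ⟨fun o => (k.c o).trans (a1.c o), fun s => (k.x s).trans (H.val a1 _ _ s)⟩
  have e := fun i => N_ent Z (k := τ' i) fun g => by
    obtain ⟨a, P, b, c⟩ := hq i
    exact a2.unr _ b.1 a (Finset.notMem_empty _) P b.2.1 b.2.2 _ c.1 g
  rw [RingHom.comp_apply, hj.x]
  rcases s with s | s
  · refine Eq.trans ?_ (H.val a1 _ _ s).symm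
    rcases s with s | s | ⟨s, s'⟩
    · refine (map_sub _ _ _).trans (congrArg₂ _ ?_ (k'.c _))
      rcases s with s | s
      exacts [Crv.hm_a Z k' s, (map_one _).trans (e s).1.symm]
    · refine (map_sub _ _ _).trans (congrArg₂ _ ?_ (k'.c _))
      rcases s with s | s
      exacts [Crv.hm_d Z k' s, (map_one _).trans (e s).2.1.symm]
    · refine (map_sub _ _ _).trans (congrArg₂ _ ?_ (k'.c _))
      rcases s with s | s
      · rcases s' with s' | s'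
        exacts [Crv.hm_x Z k' s s', (map_zero _).trans ((e s').2.2 _).1.symm]
      · exact (map_zero _).trans ((e s).2.2 _).2.symm
  · exact (map_zero _).trans (Ideal.Quotient.eq_zero_iff_mem.2 (a4 s (Nat.zero_le _))).symm

omit hq in
/-- every evaluation at a pseudo object factors through the evaluation modulo the kernel -/
theorem Fc.thru {B : Type} [CommRing B] {Z : PO S B} {u : Tg O →+* B} (h : Z.Std u)
    (ha : RingHom.ker u ∈ GP S L ∅ 0) {ψ : PS O (Sy ι) →+* B} (k : Hm Z.ι (Z.val G.rc G.γ) ψ)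
    {f : PS O (Sy ι)} {t : Tg O} (e : Ph (vA G) (RingHom.ker u) f = Ideal.Quotient.mk _ t) :
    ψ f = u t := by
  obtain ⟨n, hn⟩ := H.nil' ha
  have k0 := ph_hm hn (H.v0_mem G)
  obtain ⟨n', hn'⟩ := Z.nil
  have e1 : ψ = (RingHom.kerLift u).comp (Ph (vA G) (RingHom.ker u)) :=
    hm_ext k ⟨fun o => (congrArg _ (k0.c o)).trans ((RingHom.kerLift_mk u _).trans (h.c o)),
      fun s => (congrArg _ (k0.x s)).trans ((RingHom.kerLift_mk u _).trans (H.val h _ _ s))⟩ hn'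
      fun s => val_res Z (fun i => H.ok.lift _) s
  rw [e1, RingHom.comp_apply, e, RingHom.kerLift_mk]

omit hq in
theorem Fc.mem_An {Y : Type} [AddCommGroup Y] [Module (Tg O) Y] (hY : Gd (GP S L ∅ 0) Y)
    (f : PS O (Sy ι)) : f ∈ G.An Y ↔ ∀ w : Y, Ph (vA G) (torsionOf (Tg O) Y w) f = 0 := by
  constructor
  · intro hf w
    rcases hY w with e | ⟨Z, a1, a2, a3, a4⟩
    · haveI : Subsingleton (Tg O ⧸ torsionOf (Tg O) Y w) := e ▸ inferInstance
      exact Subsingleton.elim _ _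
    · obtain ⟨n, hn⟩ := H.nil' (hY w)
      have k := ph_hm hn (H.v0_mem G)
      exact hf _ _ _ _ ⟨w, Z, _, a1, Ideal.mk_ker, rfl, rfl⟩
        ⟨fun o => (k.c o).trans (a1.c o), fun s => (k.x s).trans (H.val a1 _ _ s)⟩
  · rintro h B _ j v ψ ⟨w, Z, u, a1, a2, rfl, rfl⟩ k
    have := h w
    rw [← a2] at this
    exact (H.thru G a1 (a2 ▸ hY w) k (t := 0) this).trans (map_zero u)

omit hq in
theorem Fc.mem_aP {f : PS O (Sy ι)} (h : ∀ a, Gp S L ∅ 0 a → Ph (vA G) a f = 0) : f ∈ G.aP := by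
  rintro B _ j v ψ ⟨Z, a1, rfl, rfl⟩ k
  let u : Tg O →+* B := MvPolynomial.eval₂Hom Z.ι
    (Sum.elim Z.t (Sum.elim (fun g => (Z.d g : B)) fun _ => 0))
  have s : Z.Std u := ⟨fun o => MvPolynomial.eval₂Hom_C _ _ o,
    fun g => MvPolynomial.eval₂Hom_X' _ _ _, fun g => MvPolynomial.eval₂Hom_X' _ _ _⟩
  have y : ∀ i, u (yy i) = 0 := fun i => MvPolynomial.eval₂Hom_X' _ _ _
  have g := H.ker ∅ 0 B Z u s a1 (fun i => by rw [y, map_zero]) fun i _ => y i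
  exact (H.thru G s (Or.inr g) k (t := 0) (h _ g)).trans (map_zero u)

end Vale.Agent.P022G.Mod
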