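import Vale.Agent.P022G.Mod.Pkg
import Vale.Agent.P022G.Rw.Lower2
import Vale.Agent.P022G.Rw.CrvPkgH88

/-!
# P022G: the patching data at a curve
-/

set_option linter.all false

open IsLocalRing Filter MvPowerSeries NumberField

noncomputable section

namespace Vale.Agent.P022G.Mod

open Vale.Agent.P022 Vale.Agent.P022G.R Vale.Agent.P022G.Loc
open Vale.Agent.P022E.As (Tg cc tt dd yy mT Dia Lv2 Sb2)
open Vale.Agent.P027M.S (Inert mx)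
open Vale.Agent.P022D.Core (PS io y1 Coef)
open Vale.Agent.P022D.PA (Base Cv lim)
open Vale.Agent.P022E.Loc (Pl)
open Vale.Agent.P022F.End0 (evt)
open Vale.Agent.P022G.Pt (Du An MD FD)

variable {O F : Type} [CommRing O] [IsDomain O] [IsDiscreteValuationRing O] [Coef O] [Field F]
  [CharP F 2] {ϖ : O} {S : Dat O F} {L : Pl O} {β : Type} {τ ι' : β → Type} [Fintype β]
  [∀ b, Fintype (τ b)] {K : Kx O β τ ι' L.C} {ι : Type} [Fintype ι] {r s : ℕ} {V : Type}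
  [CommRing V] {Y : Pc (S := S) (ι := ι) K r s V} [Base (PP O ι r)]

variable (Y) in
/-- the row `RGAL` at the curve -/
def Rg (ϖ : O) (X : Finset ℕ) : Prop :=
  letI : Algebra (S0 O τ L ι S.T r) (S1 O τ L ι S.T r) := (io O _ r).toAlgebra
  ∀ (N : ℕ → Type) [∀ n, AddCommGroup (N n)]
    [∀ n, Module (PP O ι r) (N n)] (W : Ideal (Tg O) → Prop),
    (∀ n k : ℕ, ∃ a : Ideal (Tg O), Gp S L (Finset.univ.image (Y.q n)) r a ∧ W a ∧
      (∀ i, dd (Y.τq n i) - (1 + yy i) * (tt (Y.τq n i) - (1 + yy i)) ∈ a) ∧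
      ∀ Ψ : PP O ι r →+* Tg O ⧸ a, Hm ((Ideal.Quotient.mk a).comp MvPolynomial.C)
        (fun z => Ideal.Quotient.mk a (Y.G'.vP (Y.τ' n) z)) Ψ →
        RingHom.ker Ψ ≤ Module.annihilator (PP O ι r) (N n) ⊔ maximalIdeal (PP O ι r) ^ k) →
    (Y.rd ϖ).Gal (Y.rd ϖ).E (Pt.An Y.U N) ∧
    (∀ l : L.C, (∀ a, W a → tt (L.τ l) ∈ a) →
      (Y.rd ϖ).Gal ((Y.rd ϖ).E ⊔ Ideal.span {((P022G.DD K ι S.T r).T l).trace}) (Pt.An Y.U N)) ∧
    ((∀ a, W a → ∀ l ∈ X, ∀ g, tt (g * L.τ l) - tt g ∈ a) →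
      (Y.rd ϖ).Gal ((Y.rd ϖ).E ⊔ EU K ι S.T r X) (Pt.An Y.U N))

variable {lam : ℕ → Tg O →+* PP O ι r} (A : La Y ϖ lam) {X : Finset ℕ} (hR : Rg Y ϖ X)
include A hR

section fam
variable {N : ℕ → Type} [∀ n, AddCommGroup (N n)] [∀ n, Module (Tg O) (N n)]
  [∀ n, Module (PP O ι r) (N n)] (c : ∀ n, Ac (gg Y n) (ph Y n) (N n))
  (dia : ∀ n, Dia (O := O) n (Y.τq n) (N n)) (g : ∀ n, Gd (gg Y n) (N n))
include c dia g

theorem La.gal1 :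
    letI : Algebra (S0 O τ L ι S.T r) (S1 O τ L ι S.T r) := (io O _ r).toAlgebra
    (Y.rd ϖ).Gal (Y.rd ϖ).E (An Y.U (Du N)) :=
  (hR (Du N) _ (A.gal c dia g ∅ (fun _ h => h.elim) fun _ h => h.elim)).1

theorem La.gal2 (l : L.C) (h1 : L.r (L.τ l) = 1) (h : ∀ n (w : N n), (tt (L.τ l) : Tg O) • w = 0) :
    letI : Algebra (S0 O τ L ι S.T r) (S1 O τ L ι S.T r) := (io O _ r).toAlgebra
    (Y.rd ϖ).Gal ((Y.rd ϖ).E ⊔ Ideal.span {((P022G.DD K ι S.T r).T l).trace}) (An Y.U (Du N)) :=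
  (hR (Du N) _ (A.gal c dia g {tt (L.τ l)} (by
    rintro _ rfl
    rw [A.fc.mem_mT, evt, h1, Matrix.trace_one, Fintype.card_fin, map_natCast]
    exact CharP.cast_eq_zero F 2) (by rintro _ rfl; exact h))).2.1 l fun a k => k _ rfl

theorem La.gal3 (h1 : ∀ l ∈ X, L.r (L.τ l) = 1)
    (h : ∀ l ∈ X, ∀ x n (w : N n), (tt (x * L.τ l) : Tg O) • w = (tt x : Tg O) • w) :
    letI : Algebra (S0 O τ L ι S.T r) (S1 O τ L ι S.T r) := (io O _ r).toAlgebra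
    (Y.rd ϖ).Gal ((Y.rd ϖ).E ⊔ EU K ι S.T r X) (An Y.U (Du N)) :=
  (hR (Du N) _ (A.gal c dia g {t | ∃ l ∈ X, ∃ x, t = tt (x * L.τ l) - tt x} (by
    rintro _ ⟨l, hl, x, rfl⟩
    rw [A.fc.mem_mT, map_sub, evt, evt, map_mul, h1 l hl, mul_one, sub_self, map_zero]) (by
    rintro _ ⟨l, hl, x, rfl⟩ n w
    rw [sub_smul, h l hl, sub_self]))).2.2 fun a k l hl x => k _ ⟨l, hl, x, rfl⟩

end fam

variable {Sf : P022D.R.Dat O F} {I : Type} {Y0 : I → Type} {W0 : Type}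
  [∀ i, AddCommGroup (Y0 i)] [∀ i, Module (Tg O) (Y0 i)] [AddCommGroup W0] [Module (Tg O) W0]
  {ses : I → I → I → Prop} {ig : I} {iJ : Finset L.C → I} {b : I → ℕ} {c : ℕ}
  {φ : ℕ → Fin r → GQ} {Yb : ℕ → I → Type} {Wc : ℕ → Type}
  [∀ n i, AddCommGroup (Yb n i)] [∀ n i, Module (Tg O) (Yb n i)] [∀ n, AddCommGroup (Wc n)]
  [∀ n, Module (Tg O) (Wc n)] [∀ n i, Module (PP O ι r) (Yb n i)] [∀ i, Module (PP O ι r) (Y0 i)]

/-- **MD** -/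
theorem La.md (hT : Sf.T = S.T)
    (W : ∀ n, Lv2 ϖ Sf L Y0 W0 ses ig iJ b c n (Y.q n) (Y.τq n) (φ n) (Yb n) (Wc n))
    (sb0 : ∀ i, ∃ b, Sb2 (mT L.r) b (Y0 i)) (cY : ∀ n i, Ac (gg Y n) (ph Y n) (Yb n i))
    (c0 : ∀ n i, Ac (gg Y n) (ph Y n) (Y0 i)) (hφ : ∀ n i, (mx S.rb (φ n i)).trace ≠ 0)
    {a : Fin r ⊕ Fin r → PP O ι r} {d : PP O ι r}
    (hu : ∀ i, Cv (Y.U : Filter ℕ) (fun n => uu lam Y.τq n i) (a i))
    (hd : Cv (Y.U : Filter ℕ) (DD lam Y.q φ c) d) [Nontrivial V] :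
    letI : Algebra (S0 O τ L ι S.T r) (S1 O τ L ι S.T r) := (io O _ r).toAlgebra
    MD (Y.rd ϖ) Y.U (uu lam Y.τq) a (DD lam Y.q φ c) d (fun i => Du fun n => Yb n i)
      (fun i => CharacterModule (Finset (Fin r) → Y0 i)) ses iJ := by
  letI : Algebra (S0 O τ L ι S.T r) (S1 O τ L ι S.T r) := (io O _ r).toAlgebra
  have g : ∀ n i, Gd (gg Y n) (Yb n i) := fun n i => A.fc.gd (hT ▸ (W n).gm i)
  refine Pt.DM.md (X := Y.rd ϖ) (A.tw.dm W sb0 cY c0) A.ok.hU hu hd (fun h => ?_) A.ue ?_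
    (fun J => A.gal1 hR (fun n => cY n _) (fun n => (W n).dia _) fun n => g n _)
    (fun J l hl t ht n => A.unr (cY n _) (g n _) l ((W n).unr J l hl) t ht)
    ⟨c, fun J l hl n w => (A.new (cY n _) l c w).trans ((W n).new J l hl w)⟩
  · exact (((A.dp hφ hd).map (Y.rd ϖ).ψ).map Y.θ).ne_zero h
  · have := Finset.card_pos.2 ⟨_, S.hl0⟩
    change 4 * S.T.card + 2 * r + 1 = 4 * S.T.card - 1 + (Fintype.card (Fin r ⊕ Fin r) + 2)
    rw [Fintype.card_sum, Fintype.card_fin]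
    omega

end Vale.Agent.P022G.Mod

namespace Vale.Agent.P022G

open Vale.Agent.P022G.Mod
open Vale.Agent.P022D.Core (io)
open Vale.Agent.P022D.PA (lim)

/-- **the package at a curve** -/
theorem pkg2C (h1 : POV) (h2 : GPW) (h3 : GPO) (hC : CPK) (hG : RGAL) : PKG2 := by
  intro O F _ _ _ _ _ _ _ ϖ S L X as β τ ι' _ _ _ K ι _ G hϖ hy hK hE Sf I Y0 W0 _ _ _ _ ses ig ib
    iJ e1 e2 hD p p1 p2 p3 p4
  obtain ⟨r, s, V, _, _, _, _, _, _, Y, a1, rfl, a3, a4, b, c, φ, Yb, Wc, Pb, _, _, _, _, _, _,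
    W, hP, -, hφ⟩ := hC O F ϖ S L X as β τ ι' K ι G hϖ hy hK hE L Sf I Y0 W0 ses ig ib iJ e1.le e2
      hD p p1 p2 p3 p4
  refine ⟨r, s, V, _, inferInstance, inferInstance, inferInstance, inferInstance, inferInstance,
    Y, a1, rfl, a3, a4, ?_⟩
  intro _
  letI : Algebra (S0 O τ L ι S.T r) (S1 O τ L ι S.T r) := (io O _ r).toAlgebra
  have H := fc_of h1 h2 h3 O F ϖ S L X as β τ ι' K ι Y.G' hϖ hy hK
  obtain ⟨lam, A⟩ := ex_la H a3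
  have hR : Rg Y ϖ X := fun N _ _ W h =>
    hG O F ϖ S L X as β τ ι' K ι _ hϖ hy hK r s V Y a1 rfl a3 N W h
  choose iY cY using fun n i => A.mod n (H.gd (e1 ▸ (W n).gm i))
  choose i0 c0 an using fun i => A.mod0 (H.gd (e1 ▸ hD.gm0 i))
  choose a ha using fun i => lim _ Y.U fun n => uu lam Y.τq n i
  obtain ⟨d, hd⟩ := lim _ Y.U (Mod.DD lam Y.q φ c)
  refine ⟨_, a, _, d, _, _, _, _, _, _, A.md hR e1 W hD.sb0 cY (fun n i => c0 i n) hφ ha hd,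
    fun i => ?_, fun l hl => ?_⟩
  · rw [Pt.ann_dual, ann_pi, an]
  · have t := hy.cx.ok.tm l (Finset.mem_union_right _ l.2)
    have q := hy.cx.ok.hP l (Finset.mem_union_right _ l.2)
    have u : L.r (L.τ l) = 1 := hy.cx.unr l (hy.cx.ok.pr l (Finset.mem_union_right _ l.2)).1
      (Or.inr hl) _ q.1 q.2 _ t.tau
    have k := fun n => hP n l (by have := (hy.cx.one l hl).1; omega) u
    have g := fun n => H.gd (e1 ▸ (k n).gm)
    choose iP cP using fun n => A.mod n (g n)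
    exact ⟨_, _, _, Pt.DF.fd (X := Y.rd ϖ) (A.tw.dm W hD.sb0 cY fun n i => c0 i n)
      (A.tw.dfp k cY cP) a3.hU le_sup_left
      (A.gal2 hR cP (fun n => (k n).dia) g l u fun n => (k n).ps)⟩

end Vale.Agent.P022G
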