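import Vale.Agent.P022G.Mod.Fm
import Vale.Agent.P022G.Defs
import Vale.Agent.P022D.NR.Ev
import Vale.Agent.P022D.CA.Cpl
import Vale.Agent.P022F.End1

/-!
# P022G: evaluation of power series in the quotients of the ring of symbols
-/

set_option linter.all false

open IsLocalRing Filter MvPowerSeries

noncomputable section

namespace Vale.Agent.P022G.Mod

open Vale.Agent.P022 Vale.Agent.P022E.As
open Vale.Agent.P022D.R (evl Van van_of_pow evl_C evl_X map_evl evl_zero evl_coe)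
open Vale.Agent.P022D.Core (PS)
open Vale.Agent.P022D.Sel (M2)
open Vale.Agent.P022F.End0 (evc evt evd evy)

variable {O σ : Type} [CommRing O] [Finite σ]

theorem hm_ext {B : Type} [CommRing B] {j : O →+* B} {v : σ → B} {ψ ψ' : PS O σ →+* B}
    (h : Hm j v ψ) (h' : Hm j v ψ') {m : Ideal B} {n : ℕ} (hn : m ^ n = ⊥) (hv : ∀ s, v s ∈ m) :
    ψ = ψ' := by
  have : IsHausdorff m B := ⟨fun x hx => by
    have := hx n
    rwa [hn, Submodule.bot_smul, SModEq.bot] at this⟩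
  exact P022D.NR.ev_ext m (fun c => (h.c c).trans (h'.c c).symm)
    (fun s => (h.x s).trans (h'.x s).symm) fun s => (h.x s).symm ▸ hv s

/-- the evaluation modulo `a` -/
def Ph (v : σ → Tg O) (a : Ideal (Tg O)) : PS O σ →+* Tg O ⧸ a :=
  evl ((Ideal.Quotient.mk a).comp MvPolynomial.C) fun s => Ideal.Quotient.mk a (v s)

/-- the statement that `Ψ` is the evaluation modulo `a` -/
abbrev Hq (v : σ → Tg O) (a : Ideal (Tg O)) (Ψ : PS O σ →+* Tg O ⧸ a) : Prop :=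
  Hm ((Ideal.Quotient.mk a).comp MvPolynomial.C) (fun s => Ideal.Quotient.mk a (v s)) Ψ

variable {v : σ → Tg O} {a b m : Ideal (Tg O)} {n : ℕ}

omit [Finite σ] in
theorem map_pow_bot (h : m ^ n ≤ a) : (m.map (Ideal.Quotient.mk a)) ^ n = ⊥ := by
  rw [← Ideal.map_pow, Ideal.map_eq_bot_iff_le_ker, Ideal.mk_ker]
  exact h

theorem ph_van (h : m ^ n ≤ a) (hv : ∀ s, v s ∈ m) :
    Van ((Ideal.Quotient.mk a).comp MvPolynomial.C) (fun s => Ideal.Quotient.mk a (v s)) n :=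
  van_of_pow _ _ _ (map_pow_bot h) fun s => Ideal.mem_map_of_mem _ (hv s)

theorem ph_hm (h : m ^ n ≤ a) (hv : ∀ s, v s ∈ m) : Hq v a (Ph v a) :=
  ⟨evl_C (ph_van h hv), evl_X (ph_van h hv)⟩

theorem ph_eq (h : m ^ n ≤ a) (hv : ∀ s, v s ∈ m) {Ψ : PS O σ →+* Tg O ⧸ a} (k : Hq v a Ψ) :
    Ψ = Ph v a :=
  hm_ext k (ph_hm h hv) (map_pow_bot h) fun s => Ideal.mem_map_of_mem _ (hv s)

theorem ph_fac (h : m ^ n ≤ a) (hv : ∀ s, v s ∈ m) (e : a ≤ b) {f : PS O σ} {t : Tg O}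
    (k : Ph v a f = Ideal.Quotient.mk a t) : Ph v b f = Ideal.Quotient.mk b t := by
  have h1 := map_evl (ph_van h hv) (Ideal.Quotient.factor e) f
  rw [show evl _ _ f = Ph v a f from rfl, k] at h1
  exact h1.symm

theorem ph_res (h : m ^ n ≤ a) (hv : ∀ s, v s ∈ m) {f : PS O σ} {t : Tg O}
    (k : Ph v a f = Ideal.Quotient.mk a t) : t - cc (constantCoeff f) ∈ a ⊔ m := by
  have h1 := ph_fac h hv (le_sup_left : a ≤ a ⊔ m) k
  have e : (fun s => Ideal.Quotient.mk (a ⊔ m) (v s)) = fun _ => 0 :=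
    funext fun s => Ideal.Quotient.eq_zero_iff_mem.2 (Ideal.mem_sup_right (hv s))
  rw [Ph, e, evl_zero] at h1
  exact Ideal.Quotient.eq.1 h1.symm

variable [IsDomain O] [IsDiscreteValuationRing O] {ρ : GQ →* M2 O}

omit [Finite σ] in
theorem cc_mem {c : O} : cc c ∈ mT ρ ↔ c ∈ maximalIdeal O := by
  change ev0 ρ (cc c) ∈ maximalIdeal O ↔ _
  rw [evc]

/-- the family of the evaluations -/
theorem fm_of {σ : Type} [Fintype σ] {v : σ → Tg O} {𝔊 : Set (Ideal (Tg O))}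
    (inf : ∀ a ∈ 𝔊, ∀ b ∈ 𝔊, a ⊓ b ∈ 𝔊) (hv : ∀ s, v s ∈ mT ρ)
    (nil : ∀ a ∈ 𝔊, ∃ n : ℕ, mT ρ ^ n ≤ a)
    (sur : ∀ a ∈ 𝔊, Function.Surjective (Ph v a)) (ne : ∃ a ∈ 𝔊, a ≤ mT ρ) :
    Fm 𝔊 (Ph v) (mT ρ) where
  inf := inf
  fac a ha b _ e f t k := (nil a ha).elim fun _ h => ph_fac h hv e k
  sur := sur
  ker a ha := by
    obtain ⟨n, h⟩ := nil a ha
    have h1 : maximalIdeal (PS O σ) ≤ ((mT ρ).map (Ideal.Quotient.mk a)).comap (Ph v a) := by
      intro f hf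
      obtain ⟨t, ht⟩ := Ideal.Quotient.mk_surjective (Ph v a f)
      obtain ⟨x, hx, y, hy, e⟩ := Submodule.mem_sup.1 (ph_res h hv ht.symm)
      have e' : t = x + (y + cc (constantCoeff f)) := by rw [← add_assoc, e, sub_add_cancel]
      rw [Ideal.mem_comap, ← ht, e', map_add, Ideal.Quotient.eq_zero_iff_mem.2 hx, zero_add]
      exact Ideal.mem_map_of_mem _ (add_mem hy (cc_mem.2 ((P022D.CA.Cpl.mem_max_iff f).1 hf)))
    refine ⟨n, fun u hu => ?_⟩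
    have h2 := ((Ideal.pow_right_mono h1 n).trans (Ideal.le_comap_pow _ n)) hu
    rwa [map_pow_bot h, Ideal.mem_comap, Ideal.mem_bot] at h2
  res := by
    obtain ⟨a, ha, e⟩ := ne
    obtain ⟨n, h⟩ := nil a ha
    refine ⟨a, ha, fun f t k => ?_⟩
    have h1 := (sup_le e le_rfl) (ph_res h hv k)
    rw [P022D.CA.Cpl.mem_max_iff, ← cc_mem (ρ := ρ)]
    exact ⟨fun c => by simpa using add_mem h1 c, fun c => by simpa using sub_mem c h1⟩

/-- a lift of all symbols with prescribed values on the constants and the `y` -/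
theorem ex_lam {P : Type} [CommRing P] [P022D.PA.Base P] {𝔊 : Set (Ideal (Tg O))}
    {Φ : ∀ a : Ideal (Tg O), P →+* Tg O ⧸ a} {m : Ideal (Tg O)} (h : Fm 𝔊 Φ m) (j : O →+* P)
    (hj : ∀ a ∈ 𝔊, ∀ o, Φ a (j o) = Ideal.Quotient.mk a (cc o)) (y : ℕ → P)
    (hy : ∀ a ∈ 𝔊, ∀ i, Φ a (y i) = Ideal.Quotient.mk a (yy i)) :
    ∃ lam : Tg O →+* P, Lm 𝔊 Φ lam ∧ (∀ o, lam (cc o) = j o) ∧ ∀ i, lam (yy i) = y i := by
  choose ft ht using fun g => h.mu (tt g)
  choose fd hd using fun g => h.mu (dd g)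
  let μ : Tg O →+* P := MvPolynomial.eval₂Hom j (Sum.elim ft (Sum.elim fd y))
  have m1 : ∀ c, μ (cc c) = j c := fun c => MvPolynomial.eval₂Hom_C _ _ c
  have m2 : ∀ s, μ (tt s) = ft s := fun s => MvPolynomial.eval₂Hom_X' _ _ _
  have m3 : ∀ s, μ (dd s) = fd s := fun s => MvPolynomial.eval₂Hom_X' _ _ _
  have m4 : ∀ s, μ (yy s) = y s := fun s => MvPolynomial.eval₂Hom_X' _ _ _
  refine ⟨μ, fun a ha t => congrArg (fun f : Tg O →+* Tg O ⧸ a => f t)
    (MvPolynomial.ringHom_ext (f := (Φ a).comp μ) (g := Ideal.Quotient.mk a)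
      (fun o => (congrArg (Φ a) (m1 o)).trans (hj a ha o)) fun s => ?_), m1, m4⟩
  rcases s with s | s | s
  · exact (congrArg (Φ a) (m2 s)).trans (ht s a ha)
  · exact (congrArg (Φ a) (m3 s)).trans (hd s a ha)
  · exact (congrArg (Φ a) (m4 s)).trans (hy a ha s)

end Vale.Agent.P022G.Mod
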